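import Crest.Agent.X261.Fam20.D
import Crest.Agent.X261.Fam69.Defs
import Crest.Agent.X261.Fam84.Eqv
import Crest.Agent.X261.Fam1.Tst

/-!
# X261, package FAM (helper20), file `E`: the minimisation side from the extension of tests

* `Ext D K M a r` : flat test functions extend to equivariant maps;
* `sq_of` : approximate minimisers read in a chart;
* `nr_of` : `Fam69.Nr`.
-/

set_option autoImplicit false
set_option linter.unusedSectionVars false

open Set Filter Topology MeasureTheory Matrix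
open scoped ComplexConjugate ComplexOrder InnerProductSpace ContDiff

namespace Crest.Agent.X261.Fam20

open Crest.Agent.R275.Geo Crest.Agent.R275.Core144 Crest.Agent.R273.UCov_914
open Crest.Agent.R273.Kah_333 Crest.Agent.R275.EDR890
open Crest.Agent.R273.Fock_243
open Crest.Agent.R273.Vol_333 (volK)
open Crest.Agent.R273.RMan4_798 (pullKah)
open Crest.Agent.T223.Hm (ix_mem)
open Crest.Agent.X261.Fam
open Crest.Agent.X261.Fam77 (hol_rd sm_rd dif_rd)
open Crest.Agent.X261.Fam79 (BF PF Af QF Loc Cc Cu ex cut cu_cut ev_cut)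
open Crest.Agent.X261.Fam69 (aL SqG E0 Ee Nr NrStmt)
open Crest.Agent.X261.Rel.Act (Rep Act)

noncomputable section

variable {n q : ℕ} {H : Type*} [NormedAddCommGroup H] [InnerProductSpace ℂ H]

theorem en_le_sq {K : Set (Cn n)} (hK : IsCompact K) {Q : Cn n → Mt n} (hQ : ContinuousOn Q K) :
    ∃ C : ℝ, 0 < C ∧ ∀ z ∈ K, ∀ θ : Fin n → H, en (Q z) θ ≤ C * sq θ := by
  obtain ⟨C, hC⟩ := hK.exists_bound_of_continuousOn
    (f := fun z => (fun r p => Q z r p : Fin n → Fin n → ℂ)) hQ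
  refine ⟨|C| * n + 1, by positivity, fun z hz θ => ?_⟩
  have h1 := norm_ip_le_ent (X := Q z) (z := |C|) (fun r p => (norm_le_pi_norm _ p).trans
    ((norm_le_pi_norm (fun r p => Q z r p : Fin n → Fin n → ℂ) r).trans
      ((hC z hz).trans (le_abs_self C)))) θ
  rw [Fintype.card_fin] at h1
  have h2 := (Complex.re_le_norm _).trans h1
  have h3 := sq_nonneg' θ
  unfold en
  nlinarith

theorem sq_le_en {K : Set (Cn n)} (hK : IsCompact K) {Q : Cn n → Mt n} (hQ : ContinuousOn Q K)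
    (hp : ∀ z ∈ K, (Q z).PosDef) :
    ∃ C : ℝ, 0 < C ∧ ∀ z ∈ K, ∀ θ : Fin n → H, sq θ ≤ C * en (Q z) θ := by
  have h : ContinuousOn (fun z => ((Q z).det)⁻¹ • (Q z).adjugate) K :=
    (((continuous_id.matrix_det).comp_continuousOn hQ).inv₀ fun z hz =>
      (hp z hz).det_pos.ne').smul ((continuous_id.matrix_adjugate).comp_continuousOn hQ)
  have hi : ContinuousOn (fun z => (Q z)⁻¹) K := h.congr fun z _ => by
    simp only [Matrix.inv_def, Ring.inverse_eq_inv']
  obtain ⟨C, hC, h1⟩ := en_le_sq (H := H) hK hi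
  refine ⟨C, hC, fun z hz θ => ?_⟩
  have hz' := hp z hz
  have hu : IsUnit (Q z).det := hz'.det_pos.ne'.isUnit
  have h2 := norm_ip_le hz'.posSemidef θ (ac (Q z)⁻¹ θ) C hC
  have h3 : ip (Q z) θ (ac (Q z)⁻¹ θ) = (sq θ : ℂ) := by
    rw [ip, ← ac_mul, Matrix.mul_nonsing_inv _ hu, ac_one, dt_self]
  have h4 : en (Q z) (ac (Q z)⁻¹ θ) = en (Q z)⁻¹ θ := by
    rw [← en_conj, hz'.inv.1.eq, Matrix.nonsing_inv_mul _ hu, Matrix.one_mul]
  rw [h3, h4, Complex.norm_real, Real.norm_of_nonneg (sq_nonneg' θ)] at h2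
  have h5 : 1 / (2 * C) * en (Q z)⁻¹ θ ≤ 1 / (2 * C) * (C * sq θ) :=
    mul_le_mul_of_nonneg_left (h1 z hz θ) (by positivity)
  have h6 : 1 / (2 * C) * (C * sq θ) = sq θ / 2 := by field_simp
  linarith

variable {X : Type} [TopologicalSpace X] {A : Atl n X} {G : Type} [Group G]
variable [Finite A.ι] [Countable G] [T2Space X]
variable {D : MonD A G} {M : Subgroup G} {a : D.cov G → Cn q} {r : Rep M H} {b : M → H}

/-- flat tests extend to equivariant maps -/
def Ext (D : MonD A G) (K : Kah A) (M : Subgroup G) (a : D.cov G → Cn q) (r : Rep M H) : Prop :=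
  ∀ i v (u : Cn n → H), ContDiff ℝ ∞ u → HasCompactSupport u → tsupport u ⊆ (A.e i).target →
    (∀ z, r.J (u z) = u z) → ∃ u', Eqv D M r 0 u' ∧
      (∀ z ∈ (A.e i).target, th (Fam.rd D u' i v) z = th u z) ∧
      ∀ Q w f, QT D M Q → Cc w → f ∈ TT D M r →
        IM D K M (dQ D a Q w u' f) = ∫ z in (A.e i).target, dQ D a Q w u' f i v z

attribute [local instance] Fam.mZ Fam.bZ Fam.cZ

variable (K : Kah A)

theorem th_off {u : Cn n → H} {z : Cn n} (hz : z ∉ tsupport u) : th u z = 0 := by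
  funext c
  rw [th, wd_congr (g := fun _ => 0) (notMem_tsupport_iff_eventuallyEq.1 hz), wd_const]
  rfl

theorem ip_zero_left (Q : Mt n) (θ : Fin n → H) : ip Q 0 θ = 0 := by simp [ip_eq]

/-- the pairing of a test with a map -/
theorem BQ_ext {Q : A.ι → G → Cn n → Mt n} (hQ : QT D M Q) {w : Cn q → ℝ}
    {i : A.ι} {v : G} {u : Cn n → H} (hu : ContDiff ℝ ∞ u) (hc : HasCompactSupport u)
    (hs : tsupport u ⊆ (A.e i).target) {u' f : D.cov G → H} (hf : f ∈ TT D M r)
    (h1 : ∀ z ∈ (A.e i).target, th (Fam.rd D u' i v) z = th u z)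
    (h2 : IM D K M (dQ D a Q w u' f) = ∫ z in (A.e i).target, dQ D a Q w u' f i v z)
    (hw : ∀ z ∈ tsupport u, w (Fam.rd D a i v z) = 1) :
    BQ D K M a Q w u' f = ∫ z, (ip (Q i v z) (th u z) (th (Fam.rd D f i v) z)).re := by
  have h3 : ∀ z ∉ tsupport u, ip (Q i v z) (th u z) (th (Fam.rd D f i v) z) = 0 := fun z hz => by
    rw [th_off hz, ip_zero_left]
  have h4 : ContinuousOn (fun z => ip (Q i v z) (th u z) (th (Fam.rd D f i v) z)) (tsupport u) := by
    simp only [ip_eq]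
    exact continuousOn_finsetSum _ fun c _ => continuousOn_finsetSum _ fun d _ =>
      ((continuousOn_pi.1 (continuousOn_pi.1 (hQ.cont i v) c) d).mono hs).mul
        (((contDiffOn_wd isOpen_univ hu.contDiffOn (false, c)).continuousOn.mono
          (subset_univ _)).inner ((cont_th hf.1 i v d).mono hs))
  have h5 : Integrable fun z => ip (Q i v z) (th u z) (th (Fam.rd D f i v) z) :=
    (integrableOn_iff_integrable_of_support_subset fun z hz => by
      by_contra h
      exact hz (h3 z h)).1 (h4.integrableOn_compact hc)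
  rw [BQ, h2, setIntegral_congr_fun (A.e i).open_target.measurableSet
    (g := fun z => ip (Q i v z) (th u z) (th (Fam.rd D f i v) z)) fun z hz => ?_,
    setIntegral_eq_integral_of_forall_compl_eq_zero fun z hz => h3 z fun h => hz (hs h)]
  · exact (integral_re h5).symm
  · by_cases h : z ∈ tsupport u
    · simp only [dQ, hw z h, h1 z hz, Complex.ofReal_one, one_mul]
    · simp only [dQ, h1 z hz, h3 z h, mul_zero]

/-- a compact piece of a sheet carries less than the total integral -/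
theorem cpt_le_IM (hd : Dat D M a) {R : ℝ} {Φ : A.ι → G → Cn n → ℂ} (h : Den D M a R Φ)
    (e : ∀ i v, ∀ z ∈ (A.e i).target, 0 ≤ (Φ i v z).re) (j : A.ι) (v : G) {K' : Set (Cn n)}
    (hK : IsCompact K') (hK' : K' ⊆ (A.e j).target) :
    ∫ z in K', (Φ j v z).re ≤ (IM D K M Φ).re := by
  set E : Set (D.cov (G ⧸ M)) := (D.chart j (v : G ⧸ M)).source ∩ D.chart j (v : G ⧸ M) ⁻¹' K'ᶜ
    with hE
  have hEm : MeasurableSet E :=
    ((D.chart j (v : G ⧸ M)).isOpen_inter_preimage hK.isClosed.isOpen_compl).measurableSet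
  have h1 := setIntegral_chart (volK (pullKah D (G ⧸ M) K)) (j, (v : G ⧸ M))
    ((h.continuous_gl K).aestronglyMeasurable.indicator hEm.compl)
  have h2 : ∫ y in D.sheet j (v : G ⧸ M), Eᶜ.indicator (gl D K M Φ) y ∂mu D K M =
      ∫ z in K', Φ j v z := by
    refine h1.trans ?_
    change ∫ z in (A.e j).target, _ = _
    rw [← inter_eq_right.2 hK', ← setIntegral_indicator hK.measurableSet]
    refine setIntegral_congr_fun (A.e j).open_target.measurableSet fun z hz => ?_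
    have hx := (A.e j).map_target hz
    change (K.g j ((A.e j).symm z)).det.re •
      Eᶜ.indicator (gl D K M Φ) (D.pt j (v : G ⧸ M) ((A.e j).symm z)) = _
    have h3 : D.chart j (v : G ⧸ M) (D.pt j (v : G ⧸ M) ((A.e j).symm z)) = z :=
      (A.e j).right_inv hz
    by_cases hzK : z ∈ K'
    · rw [indicator_of_mem hzK, indicator_of_mem (fun h4 => h4.2 (by rwa [h3])),
        h.gl_pt K v hx, (A.e j).right_inv hz, Complex.real_smul, ← det_ofReal (K.pos j _ hx),
        mul_div_cancel₀ _ (K.pos j _ hx).det_pos.ne']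
    · rw [indicator_of_notMem hzK, indicator_of_notMem (notMem_compl_iff.2
        (show _ ∈ E from ⟨D.pt_mem_sheet _ hx, by rwa [mem_preimage, h3]⟩)), smul_zero]
  have hm := (D.isOpen_sheet j (v : G ⧸ M)).measurableSet
  have h4 := integral_re (((h.cont j v).mono hK').integrableOn_compact (μ := volume) hK)
  refine (le_of_eq h4).trans ?_
  rw [← h2, setIntegral_indicator hEm.compl, re_IM K hd h]
  refine le_trans (le_of_eq (integral_re (h.integrable K hd).integrableOn).symm)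
    (setIntegral_le_integral (h.integrable K hd).re (ae_of_all _ fun y => ?_))
  change 0 ≤ (gl D K M Φ y).re
  rw [re_gl]
  exact div_nonneg (e _ _ _ ((A.e _).map_source (ix_mem _))) (det_re_pos (K.pos _ _ (ix_mem _))).le

theorem sq_of (hd : Dat D M a) (hE : Ext D K M a r) {Q : A.ι → G → Cn n → Mt n} (hQ : QT D M Q)
    (hp : ∀ i v, ∀ z ∈ (A.e i).target, (Q i v z).PosDef) {χ : Cn q → ℝ} (hχ : Cc χ)
    (h0 : ∀ y, 0 ≤ χ y) {F : ℕ → D.cov G → H} (hF : ∀ j, Eqv D M r b (F j))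
    (hx : Tendsto (fun j => ex (BQ D K M a Q χ) (AA D M r b) (F j)) atTop (𝓝 0))
    (i : A.ι) (v : G) {K' : Set (Cn n)} (hK : IsCompact K') (hK' : K' ⊆ (A.e i).target)
    (h1 : ∀ z ∈ K', χ (Fam.rd D a i v z) = 1) :
    Sq (cjR r) (A.e i).target (Q i v) K' fun j => Fam.rd D (F j) i v := by
  have P : PF (TT D M r) (BQ D K M a Q χ) := (qf K hd hQ).pf hχ h0
  have hA : Af (TT D M r) (VV D M r) (AA D M r b) := af ⟨F 0, hF 0⟩
  obtain ⟨R, hR⟩ := exists_rad hχ.2
  refine ⟨fun j => sm_rd (hF j).sm i v, fun j z _ => (hF j).real _, fun η hη => ?_,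
    fun δ hδ => ?_⟩
  · obtain ⟨C, hC, h2⟩ := sq_le_en (H := H) hK ((hQ.cont i v).mono hK') fun z hz => hp i v z (hK' hz)
    obtain ⟨N, hN⟩ := eventually_atTop.1 (hx.eventually (ge_mem_nhds
      (show 0 < η / (4 * C) by positivity)))
    refine ⟨N, fun j hj k hk => ?_⟩
    have hT := (TT D M r).sub_mem (mem_TT (hF j)) (mem_TT (hF k))
    have hD := den_ip hd hQ hχ.1 hR hT hT
    have h3 := cpt_le_IM K hd hD (fun i v z hz => by
      rw [re_dQ]; exact mul_nonneg (h0 _) (en_nonneg (hQ.psd i v z hz) _)) i v hK hK'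
    have h4 := Fam79.par P hA (hF j) (hF k)
    have h5 : ∫ z in K', sq (th (Fam.rd D (F j) i v) z - th (Fam.rd D (F k) i v) z) ≤
        ∫ z in K', C * (dQ D a Q χ (F j - F k) (F j - F k) i v z).re := by
      refine setIntegral_mono_on ?_ ?_ hK.measurableSet fun z hz => ?_
      · refine ContinuousOn.integrableOn_compact hK ?_
        exact continuousOn_finsetSum _ fun c _ =>
          ((((cont_th (hF j).sm i v c).sub (cont_th (hF k).sm i v c)).mono hK').norm.pow 2 :)
      · exact (continuousOn_const.mul (Complex.continuous_re.comp_continuousOn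
          ((hD.cont i v).mono hK'))).integrableOn_compact hK
      · rw [re_dQ, h1 z hz, one_mul, th_rd_sub (hF j).sm (hF k).sm v (hK' hz)]
        exact h2 z hz _
    rw [integral_const_mul] at h5
    have h6 : C * BQ D K M a Q χ (F j - F k) (F j - F k) ≤ C * (4 * (η / (4 * C))) :=
      mul_le_mul_of_nonneg_left (by linarith [hN j hj, hN k hk]) hC.le
    have h7 : C * (4 * (η / (4 * C))) = η := by field_simp
    exact h5.trans ((mul_le_mul_of_nonneg_left h3 hC.le).trans (h6.trans h7.le))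
  · obtain ⟨C, hC, h2⟩ := en_le_sq (H := H) hK ((hQ.cont i v).mono hK')
    filter_upwards [hx.eventually (ge_mem_nhds (show 0 < δ ^ 2 / C by positivity))] with j hj u hu
      hs hr
    have hc : HasCompactSupport u := hK.of_isClosed_subset (isClosed_tsupport u) hs
    obtain ⟨u', h3, h4, h5⟩ := hE i v u hu hc (hs.trans hK') hr
    have h6 := Fam79.el P hA (hF j) (u := u') h3
    rw [BQ_ext K hQ hu hc (hs.trans hK') (mem_TT (hF j)) h4 (h5 Q χ _ hQ hχ (mem_TT (hF j)))
      fun z hz => h1 z (hs hz), BQ_ext K hQ hu hc (hs.trans hK') (mem_TT h3) h4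
      (h5 Q χ _ hQ hχ (mem_TT h3)) fun z hz => h1 z (hs hz)] at h6
    refine h6.trans ?_
    have h7 : ∫ z, (ip (Q i v z) (th u z) (th (Fam.rd D u' i v) z)).re ≤ C * ∫ z, sq (th u z) := by
      rw [← integral_const_mul]
      refine integral_mono_of_nonneg (ae_of_all _ fun z => ?_) ?_ (ae_of_all _ fun z => ?_)
      · by_cases h : z ∈ tsupport u
        · simp only [h4 z (hK' (hs h))]
          exact en_nonneg (hQ.psd i v z (hK' (hs h))) _
        · simp only [th_off h, ip_zero_left, Complex.zero_re, Pi.zero_apply, le_refl]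
      · refine Integrable.const_mul (Continuous.integrable_of_hasCompactSupport ?_ ?_) C
        · exact continuous_finsetSum _ fun c _ => (continuousOn_univ.1
            (contDiffOn_wd isOpen_univ hu.contDiffOn (false, c)).continuousOn).norm.pow 2
        · exact HasCompactSupport.intro hc fun z hz => by simp [th_off hz, Fam.sq]
      · by_cases h : z ∈ tsupport u
        · simp only [h4 z (hK' (hs h))]
          exact h2 z (hs h) _
        · simp [th_off h, ip_zero_left, Fam.sq]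
    calc _ ≤ √(δ ^ 2 / C) * √(C * ∫ z, sq (th u z)) := by gcongr
      _ = δ * √(∫ z, sq (th u z)) := by
        rw [Real.sqrt_mul hC.le, ← mul_assoc, ← Real.sqrt_mul (by positivity),
          div_mul_cancel₀ _ hC.ne', Real.sqrt_sq hδ.le]

theorem norm_le_mL {L : Mt q} (hL : L.det ≠ 0) (y : Cn q) : ‖y‖ ≤ ‖Fam.mL L⁻¹‖ * ‖Fam.mL L y‖ := by
  have h1 : Fam.mL L⁻¹ (Fam.mL L y) = y := by
    rw [← mul_apply_eq_comp, Fam.mL, Fam.mL, ← map_mul,
      Matrix.nonsing_inv_mul _ hL.isUnit, map_one]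
    rfl
  conv_lhs => rw [← h1]
  exact ContinuousLinearMap.le_opNorm _ _

theorem cc_mL {L : Mt q} (hL : L.det ≠ 0) {χ : Cn q → ℝ} (h : Cc χ) : Cc fun y => χ (Fam.mL L y) := by
  obtain ⟨R, hR⟩ := exists_rad h.2
  refine ⟨h.1.comp (Fam.mL L).continuous, HasCompactSupport.intro
    (isCompact_closedBall 0 (‖Fam.mL L⁻¹‖ * R)) fun y hy => hR _ (lt_of_not_ge fun h1 => hy ?_)⟩
  rw [mem_closedBall_zero_iff]
  exact (norm_le_mL hL y).trans (mul_le_mul_of_nonneg_left h1 (norm_nonneg _))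

theorem E0_sub (hd : Dat D M a) (L : Mt q) (w : Cn q → ℝ) {f g : D.cov G → H}
    (hf : (D.atl G).Sm f) (hg : (D.atl G).Sm g) :
    E0 D K M (aL L a) w (fun i v z => th (Fam.rd D f i v) z - th (Fam.rd D g i v) z) =
      BQ D K M a (Q0f D K (aM L a)) (fun y => w (Fam.mL L y)) (f - g) (f - g) := by
  rw [BQ_self K (qt_Q0L K hd L), E0]
  congr 1
  refine IM_congr K fun i v z hz => ?_
  rw [th_rd_sub hf hg v hz]
  rfl

theorem exists_cut {w : Cn q → ℝ} (hw : Cc w) (ρ : ℝ) : ∃ κ, Cu κ ∧ ∃ C : ℝ, 0 < C ∧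
    (∀ y, ‖y‖ ≤ ρ → κ y = 1) ∧ ∀ y, w y ≤ C * κ y := by
  obtain ⟨k, hk⟩ := (ev_cut ((isCompact_closedBall (0 : Cn q) ρ).union hw.2)).exists
  obtain ⟨C, hC⟩ := hw.1.bounded_above_of_compact_support hw.2
  refine ⟨_, cu_cut k, |C| + 1, by positivity,
    fun y hy => hk y (Or.inl (mem_closedBall_zero_iff.2 hy)), fun y => ?_⟩
  by_cases hy : y ∈ tsupport w
  · rw [hk y (Or.inr hy), mul_one]
    linarith [le_abs_self (w y), hC y, le_abs_self C, Real.norm_eq_abs (w y)]
  · rw [image_eq_zero_of_notMem_tsupport hy]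
    exact mul_nonneg (by positivity) ((cu_cut k).nn y)

/-- **the minimisation side** -/
theorem nr_of (hd : Dat D M a) (hE : Ext D K M a r) (h0 : ∃ f, Eqv D M r b f) :
    ∃ (f : ℕ → D.cov G → H) (ν : Measure (Cn q)), IsLocallyFiniteMeasure ν ∧
      Nr D K M a r b f ν := by
  have hA : Af (TT D M r) (VV D M r) (AA D M r b) := af h0
  have H0 : QF (TT D M r) (BQ D K M a (Q0f D K a)) := qf K hd (qt_Q0 K hd)
  obtain ⟨f, ν, hν, hf, hx, hl, -⟩ := Fam79.exists_glob H0 hA (loc0 K hd)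
  have hcl : ∀ {w κ : Cn q → ℝ} {C : ℝ}, Cc w → Cu κ → 0 < C → (∀ y, w y ≤ C * κ y) →
      ∀ F ∈ AA D M r b, ∀ F' ∈ AA D M r b, BQ D K M a (Q0f D K a) w (F - F') (F - F') ≤
        C * (2 * ex (BQ D K M a (Q0f D K a) κ) (AA D M r b) F +
          2 * ex (BQ D K M a (Q0f D K a) κ) (AA D M r b) F') := by
    intro w κ C hw hκ hC h F hF F' hF'
    have hT := hA.le (hA.diff F hF F' hF')
    refine (H0.mono hw (hκ.cc.smul C) h hT).trans ?_
    rw [H0.wsmul _ hκ.cc C _ hT _ hT]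
    exact mul_le_mul_of_nonneg_left (Fam79.par (H0.pf hκ.cc hκ.nn) hA hF hF') hC.le
  refine ⟨f, ν, hν, hf, fun w h1 h2 _ η hη => ?_, fun i v u hu hc hs hr => ?_,
    fun w h1 h2 => ?_, fun L hL R χ h1 h2 h3 η hη => ?_⟩
  · obtain ⟨κ, hκ, C, hC, -, h4⟩ := exists_cut ⟨h1, h2⟩ 0
    obtain ⟨N, hN⟩ := eventually_atTop.1 ((hx κ hκ).eventually (ge_mem_nhds
      (show 0 < η / (4 * C) by positivity)))
    refine ⟨N, fun k hk l hl' => ?_⟩
    have h5 : E0 D K M a w (fun i v z => th (Fam.rd D (f k) i v) z - th (Fam.rd D (f l) i v) z) =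
        BQ D K M a (Q0f D K a) w (f k - f l) (f k - f l) := by
      rw [BQ_self K (qt_Q0 K hd), E0]
      congr 1
      refine IM_congr K fun i v z hz => ?_
      rw [th_rd_sub (hf k).sm (hf l).sm v hz]
      rfl
    rw [h5]
    refine (hcl ⟨h1, h2⟩ hκ hC h4 _ (hf k) _ (hf l)).trans ?_
    calc _ ≤ C * (4 * (η / (4 * C))) :=
          mul_le_mul_of_nonneg_left (by linarith [hN k hk, hN l hl']) hC.le
      _ = η := by field_simp
  · obtain ⟨u', h3, h4, h5⟩ := hE i v u hu hc hs hr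
    obtain ⟨ρ, hρ⟩ := hc.isCompact.exists_bound_of_continuousOn
      ((hol_rd hd i v).continuousOn.mono hs)
    obtain ⟨κ, hκ, -, -, h6, -⟩ := exists_cut (w := fun _ : Cn q => (0 : ℝ))
      ⟨continuous_const, HasCompactSupport.zero⟩ ρ
    have h7 := (((Real.continuous_sqrt.tendsto 0).comp (hx κ hκ)).mul_const
      √(BQ D K M a (Q0f D K a) κ u' u'))
    rw [Real.sqrt_zero, zero_mul] at h7
    refine squeeze_zero_norm (fun k => ?_) h7
    have h8 := Fam79.el (H0.pf hκ.cc hκ.nn) hA (hf k) (u := u') h3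
    rw [BQ_ext K (qt_Q0 K hd) hu hc hs (mem_TT (hf k)) h4
      (h5 _ κ _ (qt_Q0 K hd) hκ.cc (mem_TT (hf k))) fun z hz => h6 _ (hρ z hz)] at h8
    exact h8
  · refine (hl w ⟨h1, h2⟩).congr fun k => ?_
    rw [BQ_self K (qt_Q0 K hd)]
    rfl
  · have hw := cc_mL hL ⟨h1, h2⟩
    obtain ⟨κ, hκ, C, hC, h4, h5⟩ := exists_cut hw (‖Fam.mL L⁻¹‖ * R)
    set c : ℝ := ‖L.det‖ ^ 2 with hc
    have hc0 : 0 < c := pow_pos (norm_pos_iff.2 hL) 2
    set η' : ℝ := η / (C * (4 * c + 1)) with hη'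
    have hη0 : 0 < η' := by positivity
    have hη1 : C * (4 * c + 1) * η' = η := by rw [hη']; field_simp
    have hI : ∀ᶠ ε : ℝ in 𝓝[>] 0, ε ∈ Ioc (0 : ℝ) 1 := Ioc_mem_nhdsGT one_pos
    obtain ⟨δ, hδ, h6⟩ := Fam79.near (H0.pf hκ.cc hκ.nn) hA (l := 𝓝[>] (0 : ℝ))
      (be := fun ε => BQ D K M a (Qef D K (aM L a) ε) κ) hc0
      (hI.mono fun ε hε F hF => le_e K hd L hε.1 hκ.cc hκ.nn (mem_TT hF))
      (fun F hF => tend_e K hd L hκ.cc hκ.nn (mem_TT hF)) hη0
    obtain ⟨ε, hε, h7⟩ := (hI.and h6).exists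
    have hQ := qt_Qe K hd L hε.1
    have He : QF (TT D M r) (BQ D K M a (Qef D K (aM L a) ε)) := qf K hd hQ
    obtain ⟨F, hF, h8⟩ := Fam79.exists_seq (He.pf hκ.cc hκ.nn) hA
    have h9 := (h8.eventually (ge_mem_nhds hδ)).mono fun j hj => h7 (F j) (hF j) hj
    refine ⟨ε, hε.1, hε.2, F, hF, fun i v K' hK hK' hR => ?_, h9.mono fun j hj => ?_,
      h9.mono fun j hj => ?_⟩
    · exact sq_of K hd hE hQ (fun i v z hz => Qe_posDef (K.pos i _ ((A.e i).map_target hz)) _ hε.1)
        hκ.cc hκ.nn hF h8 i v hK hK' fun z hz => h4 _ ((norm_le_mL hL _).trans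
          (mul_le_mul_of_nonneg_left (hR z hz) (norm_nonneg _)))
    · have hT := mem_TT (hF j)
      have e1 : Ee D K M (aL L a) χ ε (fun i v z => th (Fam.rd D (F j) i v) z) =
          BQ D K M a (Qef D K (aM L a) ε) (fun y => χ (Fam.mL L y)) (F j) (F j) := by
        rw [BQ_self K hQ]
        rfl
      have e2 : E0 D K M (aL L a) χ (fun i v z => th (Fam.rd D (F j) i v) z) =
          c * BQ D K M a (Q0f D K a) (fun y => χ (Fam.mL L y)) (F j) (F j) := by
        rw [hc, ← B0L K hd, BQ_self K (qt_Q0L K hd L)]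
        rfl
      have e3 := le_e K hd L hε.1 ((hκ.cc.smul C).add (hw.smul (-1)))
        (fun y => by linarith [h5 y]) hT
      rw [He.wadd _ _ (hκ.cc.smul C) (hw.smul _) _ hT _ hT, He.wsmul _ hκ.cc _ _ hT _ hT,
        He.wsmul _ hw _ _ hT _ hT, H0.wadd _ _ (hκ.cc.smul C) (hw.smul _) _ hT _ hT,
        H0.wsmul _ hκ.cc _ _ hT _ hT, H0.wsmul _ hw _ _ hT _ hT, ← hc] at e3
      rw [e1, e2]
      have e4 := mul_le_mul_of_nonneg_left hj.1 hC.le
      have e5 : 0 ≤ C * (4 * c) * η' := by positivity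
      nlinarith
    · filter_upwards [(hx κ hκ).eventually (ge_mem_nhds hη0)] with k hk
      rw [E0_sub K hd L χ (hF j).sm (hf k).sm, B0L K hd, ← hc]
      have e1 := hcl hw hκ hC h5 _ (hF j) _ (hf k)
      have e2 : C * (2 * ex (BQ D K M a (Q0f D K a) κ) (AA D M r b) (F j) +
          2 * ex (BQ D K M a (Q0f D K a) κ) (AA D M r b) (f k)) ≤ C * (4 * η') :=
        mul_le_mul_of_nonneg_left (by linarith [hj.2.1]) hC.le
      have e3 := mul_le_mul_of_nonneg_left (e1.trans e2) hc0.le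
      have e5 : 0 ≤ C * η' := by positivity
      nlinarith

theorem ext_of (hd : Dat D M a) : Ext D K M a r := by
  intro i v u hu hc hs hr
  have h1 : Eqv D M r 0 (Fam1.ext D r i v u) := Fam1.eqv_ext D r v hu hc hs hr
  refine ⟨_, h1, fun z hz => Fam1.th_ext_self D r v u hz, fun Q w f hQ hw hf => ?_⟩
  obtain ⟨R, hR⟩ := exists_rad hw.2
  refine Fam1.IM_one K hd (den_ip hd hQ hw.1 hR (mem_TT h1) hf) i v (fun j w x hx h => ?_)
    fun w h z hz => ?_
  · rw [dQ, Fam1.th_ext_off D r v hc hs j w hx h, ip_zero_left, mul_zero]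
  · rw [dQ, Fam1.th_ext_ne D r v u h hz, ip_zero_left, mul_zero]

/-- **NR** -/
theorem nrStmt : NrStmt := fun _ _ _ _ _ _ _ _ P K _ _ _ D M _ hd _ _ _ _ α =>
  nr_of K hd (ext_of K hd) (Fam84.exists_eqv P D M α)

end

end Crest.Agent.X261.Fam20
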