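import Crest.Agent.X261.Fam20.B
import Crest.Agent.X261.Fam.Defs

/-!
# X261, package FAM, part POST (helper20), file `C`: the bridge `Fam.Lm ↔ Rel.Lim`

* `Sl_eq`, `tau_eq` : the flat forms of `Fam` are those of `Rel`;
* `lim_of_lm`, `lm_of_lim` : the two notions of convergence agree;
* `min_lim`, `min_tr`, `min_eqv`, `min_deg`, `min_hor`, `min_closed` : consequences for `IsMin`.
-/

set_option autoImplicit false
set_option linter.unusedSectionVars false
set_option linter.dupNamespace false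

open Set Filter Topology Complex Matrix MeasureTheory
open scoped ENNReal InnerProductSpace ContDiff

namespace Crest.Agent.X261.Fam20

open Crest.Agent.R275.Geo Crest.Agent.R275.Core144
open Crest.Agent.R275.OmT75 (dj dl)
open Crest.Agent.R275.EDR890 (wd)
open Crest.Agent.R273.UCov_914 Crest.Agent.R273.Kah_333
open Crest.Agent.R273.Fock_243 (FI Gam eW iW ep)
open Crest.Agent.X261.Top (wdg dW HolV)
open Crest.Agent.X261.Gauss (mv dV)
open Crest.Agent.X261.Rel (aV Lim)
open Crest.Agent.X261.Rel.Act (Act Rep)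
open Crest.Agent.X261.Fam (Sl Cf th tau rd Lm IsMin Dat Eqv)

noncomputable section

variable {n q : ℕ} {H : Type} [NormedAddCommGroup H] [InnerProductSpace ℂ H]

theorem wd_false {W : Type*} [NormedAddCommGroup W] [NormedSpace ℂ W] (b : Fin n) (F : Cn n → W) :
    wd (false, b) F = dj b F := by
  funext z
  simp [wd, R275.EDR890.wdL, dj, sub_eq_add_neg]

theorem tau_eq (a : Cn n → Cn q) (z : Cn n) : tau (Cf a z) = Wd (fun k w => a w k) z := by
  rw [Wd, Jet.Tb.wdg_eq]
  simp only [← wd_false]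
  rfl

theorem Sl_eq (a : Cn n → Cn q) (F : Cn n → H) (z : Cn n) : Sl a F z = fw a F z := by
  rw [fw, ← tau_eq]
  simp only [← wd_false]
  rfl

variable {X : Type} [TopologicalSpace X] {A : Atl n X} {G : Type} [Group G] {D : MonD A G}

theorem tau_dW (a : D.cov G → Cn q) (i : A.ι) (v : G) (x : X) :
    tau (Cf (rd D a i v) (A.e i x)) = dW A i (aV D a i v) x := tau_eq _ _

theorem Sl_tw (a : D.cov G → Cn q) (f : D.cov G → H) (i : A.ι) (v : G) (x : X) :
    Sl (rd D a i v) (rd D f i v) (A.e i x) = Rel.tw D a f i v x := Sl_eq _ _ _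

theorem Sl_tw' (a : D.cov G → Cn q) (f : D.cov G → H) {i : A.ι} (v : G) {z : Cn n}
    (hz : z ∈ (A.e i).target) :
    Sl (rd D a i v) (rd D f i v) z = Rel.tw D a f i v ((A.e i).symm z) := by
  rw [← Sl_tw, (A.e i).right_inv hz]

theorem lint_eq {W : Type*} [NormedAddCommGroup W] {K : Set (Cn n)} (hK : IsCompact K)
    {g : Cn n → W} (hg : ContinuousOn g K) :
    ∫⁻ z in K, ‖g z‖ₑ ^ 2 = ENNReal.ofReal (∫ z in K, ‖g z‖ ^ 2) := by
  rw [ofReal_integral_eq_lintegral_ofReal (f := fun z => ‖g z‖ ^ 2)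
    ((hg.norm.pow 2).integrableOn_compact hK)
    (Eventually.of_forall fun z => by positivity)]
  refine lintegral_congr fun z => ?_
  rw [ENNReal.ofReal_pow (norm_nonneg _), ofReal_norm]

theorem tend_iff {W : Type*} [NormedAddCommGroup W] {K : Set (Cn n)} (hK : IsCompact K)
    {g : ℕ → Cn n → W} (hg : ∀ k, ContinuousOn (g k) K) :
    Tendsto (fun k => ∫⁻ z in K, ‖g k z‖ₑ ^ 2) atTop (𝓝 0) ↔
      Tendsto (fun k => ∫ z in K, ‖g k z‖ ^ 2) atTop (𝓝 0) := by
  simp only [lint_eq hK (hg _)]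
  constructor
  · intro h
    have h1 := (ENNReal.tendsto_toReal ENNReal.zero_ne_top).comp h
    rw [ENNReal.toReal_zero] at h1
    exact h1.congr fun k => ENNReal.toReal_ofReal (integral_nonneg fun z => by positivity)
  · intro h
    have h1 := ENNReal.tendsto_ofReal h
    rwa [ENNReal.ofReal_zero] at h1

variable {a : D.cov G → Cn q} {f : ℕ → D.cov G → H} {S : A.ι → G → X → FI n → H}

theorem lm_iff (ha : HolV (D.atl G) univ a) (hf : ∀ k, (D.atl G).Sm (f k))
    (hS : ∀ i v I, DifferentiableOn ℂ (fun z => S i v ((A.e i).symm z) I) (A.e i).target)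
    (i : A.ι) (v : G) {K : Set (Cn n)} (hK : K ⊆ (A.e i).target) (hc : IsCompact K) (I : FI n) :
    Tendsto (fun k => ∫⁻ z in K, ‖Rel.tw D a (f k) i v ((A.e i).symm z) I -
      S i v ((A.e i).symm z) I‖ₑ ^ 2) atTop (𝓝 0) ↔
    Tendsto (fun k => ∫ z in K, ‖Sl (rd D a i v) (rd D (f k) i v) z I -
      S i v ((A.e i).symm z) I‖ ^ 2) atTop (𝓝 0) := by
  rw [tend_iff (g := fun k z => Rel.tw D a (f k) i v ((A.e i).symm z) I - S i v ((A.e i).symm z) I)
    hc fun k => ((tw_smooth (hal_sm ha) (hf k) i v I).continuousOn.sub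
    (hS i v I).continuousOn).mono hK]
  refine tendsto_congr fun k => setIntegral_congr_fun hc.measurableSet fun z hz => ?_
  simp only [Sl_tw' a (f k) v (hK hz)]

theorem lim_of_lm (ha : HolV (D.atl G) univ a) (hf : ∀ k, (D.atl G).Sm (f k))
    (hS : ∀ i v I, DifferentiableOn ℂ (fun z => S i v ((A.e i).symm z) I) (A.e i).target)
    (h : Lm D a f S) : Lim D a f S :=
  ⟨hf, hS, fun i v K hK hc I => (lm_iff ha hf hS i v hK hc I).2 (h i v K hK hc I)⟩

theorem lm_of_lim (ha : HolV (D.atl G) univ a) (h : Lim D a f S) : Lm D a f S :=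
  fun i v K hK hc I => (lm_iff ha h.f_sm h.S_hol i v hK hc I).1 (h.lim i v K hK hc I)

variable {K : Kah A} {M : Subgroup G} {r : Rep M H} {b : M → H}

theorem min_lim (ha : HolV (D.atl G) univ a) (h : IsMin D K M a r b S) :
    ∃ f : ℕ → D.cov G → H, (∀ k, Eqv D M r b (f k)) ∧ Lim D a f S := by
  obtain ⟨f, h1, h2⟩ := h.lim
  exact ⟨f, h1, lim_of_lm ha (fun k => (h1 k).sm) h.hol h2⟩

theorem min_tr (ha : HolV (D.atl G) univ a) (h : IsMin D K M a r b S) :
    ∀ i j v, ∀ x ∈ (A.e i).source ∩ (A.e j).source,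
      S i v x = mv (Gam (Jm A i j x)ᵀ) (S j (D.c i j x * v) x) := by
  obtain ⟨f, -, h2⟩ := min_lim ha h
  exact trS ha h2

theorem min_deg (ha : HolV (D.atl G) univ a) (h : IsMin D K M a r b S) :
    ∀ i v, ∀ x ∈ (A.e i).source, ∀ I : FI n, I.card ≠ q + 1 → S i v x I = 0 := by
  obtain ⟨f, -, h2⟩ := min_lim ha h
  exact deg ha h2

theorem min_hor (ha : HolV (D.atl G) univ a) (h : IsMin D K M a r b S) :
    ∀ i v, ∀ x ∈ (A.e i).source, ∀ k, mv (eW (dV A i (aV D a i v) x k)) (S i v x) = 0 := by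
  obtain ⟨f, -, h2⟩ := min_lim ha h
  exact hor ha h2

theorem min_closed (ha : HolV (D.atl G) univ a) (h : IsMin D K M a r b S) :
    ∀ i v, ∀ x ∈ (A.e i).source,
      ∑ c, mv (eW (ep c)) (fun I => dl A i c (fun y => S i v y I) x) = 0 := by
  obtain ⟨f, -, h2⟩ := min_lim ha h
  exact closed ha h2

theorem min_eqv (ha : Dat D M a) (h : IsMin D K M a r b S) :
    ∀ (m : M) i v, ∀ x ∈ (A.e i).source, ∀ I, S i (v * (m : G)⁻¹) x I = r.π m (S i v x I) := by
  obtain ⟨f, hf, h2⟩ := min_lim ha.hol h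
  intro m i v x hx I
  have h1 := map ha.hol ha.hol h2 h2 (r.π m).toContinuousLinearEquiv.toContinuousLinearMap 1
    (i := i) (v := v) (w := v * (m : G)⁻¹) (fun y _ => ?_) (fun k => ⟨b m, fun y _ => ?_⟩) x hx I
  · rw [h1, one_smul]
    rfl
  · rw [one_smul]
    congr 1
    funext y
    simp only [aV]
    rw [← D.deck_pt, ha.inv m m.2]
  · rw [← D.deck_pt, (hf k).eqv]
    rfl

end

end Crest.Agent.X261.Fam20
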