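import Crest.Agent.X261.Rel.Defs
import Crest.Agent.X261.Jet.TbA

/-!
# X261, package FAM, part POST (helper20), file `A`: flat calculus and `L²` limits

* `dj_smul`, `dj_clm`, `dj_comm`, `int_dj` : calculus of `∂_a`;
* `Wd g`, `d_Wd` : the form `∂g_1 ∧ … ∧ ∂g_r` is `∂`-closed;
* `exists_sub`   : an `L¹`-null sequence has an a.e. null subsequence;
* `tend_pair`    : pairing with a test function is continuous for local `L²` convergence;
* `zero_of_test` : a continuous function orthogonal to the test functions vanishes.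
-/

set_option autoImplicit false
set_option linter.unusedSectionVars false
set_option linter.dupNamespace false

open Set Filter Topology Complex Matrix MeasureTheory
open scoped ENNReal InnerProductSpace ContDiff

namespace Crest.Agent.X261.Fam20

open Crest.Agent.R275.Geo
open Crest.Agent.R275.OmT75 (dj dj_congr dj_sum dj_pi dj_contDiffOn)
open Crest.Agent.R273.Fock_243 (FI Gam eW iW ep eW_anti eW_sq eW_eq_sum)
open Crest.Agent.X261.Top (wdg)
open Crest.Agent.X261.Jet.Tb (wdg_cons wdg_nil)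

noncomputable section

variable {n : ℕ} {W W' : Type*} [NormedAddCommGroup W] [NormedSpace ℂ W]
  [NormedAddCommGroup W'] [NormedSpace ℂ W']

theorem dj_smul {a : Fin n} {c : Cn n → ℂ} {f : Cn n → W} {z : Cn n}
    (hc : DifferentiableAt ℝ c z) (hf : DifferentiableAt ℝ f z) :
    dj a (fun w => c w • f w) z = dj a c z • f z + c z • dj a f z := by
  have h : fderiv ℝ (fun w => c w • f w) z =
      c z • fderiv ℝ f z + (fderiv ℝ c z).smulRight (f z) := fderiv_fun_smul hc hf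
  simp only [dj, h, _root_.add_apply, _root_.smul_apply,
    ContinuousLinearMap.smulRight_apply, smul_eq_mul]
  module

theorem dj_clm {a : Fin n} (L : W →L[ℂ] W') {f : Cn n → W} {z : Cn n}
    (hf : DifferentiableAt ℝ f z) : dj a (fun w => L (f w)) z = L (dj a f z) := by
  have h : fderiv ℝ (fun w => L (f w)) z = (L.restrictScalars ℝ).comp (fderiv ℝ f z) :=
    ((L.restrictScalars ℝ).hasFDerivAt.comp z hf.hasFDerivAt).fderiv
  simp only [dj, h, ContinuousLinearMap.comp_apply, ContinuousLinearMap.coe_restrictScalars',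
    map_smul, map_sub]

theorem dbj_clm {a : Fin n} (L : W →L[ℂ] W') {f : Cn n → W} {z : Cn n}
    (hf : DifferentiableAt ℝ f z) : dbj a (fun w => L (f w)) z = L (dbj a f z) := by
  have h : fderiv ℝ (fun w => L (f w)) z = (L.restrictScalars ℝ).comp (fderiv ℝ f z) :=
    ((L.restrictScalars ℝ).hasFDerivAt.comp z hf.hasFDerivAt).fderiv
  simp only [dbj, h, ContinuousLinearMap.comp_apply, ContinuousLinearMap.coe_restrictScalars',
    map_smul, map_add]

theorem dj_add_const {a : Fin n} (f : Cn n → W) (b : W) (z : Cn n) :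
    dj a (fun w => f w + b) z = dj a f z := by
  simp only [dj, fderiv_add_const]

theorem dj_const {a : Fin n} (b : W) (z : Cn n) : dj a (fun _ => b) z = 0 := by
  simp [dj]

theorem fderiv_dj {f : Cn n → W} {z : Cn n} (h : ContDiffAt ℝ ∞ f z) (c : Fin n) (u : Cn n) :
    fderiv ℝ (dj c f) z u = (1 / 2 : ℂ) • (fderiv ℝ (fderiv ℝ f) z u (EuclideanSpace.single c 1) -
      I • fderiv ℝ (fderiv ℝ f) z u (EuclideanSpace.single c I)) := by
  have h1 : DifferentiableAt ℝ (fderiv ℝ f) z :=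
    (h.fderiv_right (m := 1) (WithTop.coe_le_coe.2 le_top : ((2 : ℕ∞) : WithTop ℕ∞) ≤ (⊤ : ℕ∞))).differentiableAt (by simp)
  have h2 : ∀ v : Cn n, HasFDerivAt (fun w => fderiv ℝ f w v)
      ((ContinuousLinearMap.apply ℝ W v).comp (fderiv ℝ (fderiv ℝ f) z)) z := fun v =>
    (ContinuousLinearMap.apply ℝ W v).hasFDerivAt.comp z h1.hasFDerivAt
  have h3 := ((h2 (EuclideanSpace.single c 1)).sub
    ((h2 (EuclideanSpace.single c I)).const_smul I)).const_smul (1 / 2 : ℂ)
  have h4 : fderiv ℝ (dj c f) z = _ := h3.fderiv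
  rw [h4]
  rfl

theorem dj_comm {f : Cn n → W} {z : Cn n} (h : ContDiffAt ℝ ∞ f z) (b c : Fin n) :
    dj b (dj c f) z = dj c (dj b f) z := by
  have hs : IsSymmSndFDerivAt ℝ f z := h.isSymmSndFDerivAt (by
    simp only [minSmoothness_of_isRCLikeNormedField]
    exact (WithTop.coe_le_coe.2 le_top : ((2 : ℕ∞) : WithTop ℕ∞) ≤ (⊤ : ℕ∞)))
  rw [dj, dj, fderiv_dj h, fderiv_dj h, fderiv_dj h, fderiv_dj h,
    hs (EuclideanSpace.single b 1) (EuclideanSpace.single c 1),
    hs (EuclideanSpace.single b 1) (EuclideanSpace.single c I),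
    hs (EuclideanSpace.single b I) (EuclideanSpace.single c 1),
    hs (EuclideanSpace.single b I) (EuclideanSpace.single c I)]
  module

/-- `∂g_1 ∧ … ∧ ∂g_r` -/
def Wd {r : ℕ} (g : Fin r → Cn n → ℂ) (z : Cn n) : FI n → ℂ := wdg fun k c => dj c (g k) z

/-- a matrix as a continuous linear map -/
def mL (B : Matrix (FI n) (FI n) ℂ) : (FI n → ℂ) →L[ℂ] (FI n → ℂ) :=
  LinearMap.toContinuousLinearMap (Matrix.mulVecLin B)

theorem mL_apply (B : Matrix (FI n) (FI n) ℂ) (v : FI n → ℂ) : mL B v = B *ᵥ v := rfl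

theorem eW_mulVec (a : Fin n → ℂ) (τ : FI n → ℂ) : eW a *ᵥ τ = ∑ c, a c • (eW (ep c) *ᵥ τ) := by
  rw [eW_eq_sum, Matrix.sum_mulVec]
  simp only [Matrix.smul_mulVec]

theorem Wd_succ {r : ℕ} (g : Fin (r + 1) → Cn n → ℂ) :
    Wd g = fun z => ∑ c, dj c (g 0) z • mL (eW (ep c)) (Wd (fun k => g k.succ) z) := by
  funext z
  rw [Wd, wdg_cons, eW_mulVec]
  rfl

theorem Wd_smooth {O : Set (Cn n)} (hO : IsOpen O) :
    ∀ {r : ℕ} {g : Fin r → Cn n → ℂ}, (∀ k, ContDiffOn ℝ ∞ (g k) O) → ContDiffOn ℝ ∞ (Wd g) O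
  | 0, g, _ => by
    have : Wd g = fun _ => Pi.single ∅ 1 := funext fun z => wdg_nil _
    rw [this]
    exact contDiffOn_const
  | r + 1, g, hg => by
    rw [Wd_succ]
    refine ContDiffOn.sum fun c _ => (dj_contDiffOn hO (hg 0)).smul ?_
    exact ((mL (eW (ep c))).restrictScalars ℝ).contDiff.comp_contDiffOn
      (Wd_smooth hO fun k => hg k.succ)

theorem sym_anti {s : Fin n → Fin n → ℂ} (hs : ∀ b c, s b c = s c b) (τ : FI n → ℂ) :
    ∑ b, ∑ c, s b c • (eW (ep b) *ᵥ (eW (ep c) *ᵥ τ)) = 0 := by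
  set T := ∑ b, ∑ c, s b c • (eW (ep b) *ᵥ (eW (ep c) *ᵥ τ)) with hT
  have h1 : T = ∑ b, ∑ c, s b c • (eW (ep c) *ᵥ (eW (ep b) *ᵥ τ)) := by
    rw [hT, Finset.sum_comm]
    exact Finset.sum_congr rfl fun b _ => Finset.sum_congr rfl fun c _ => by rw [hs]
  have h2 : T + T = 0 := by
    nth_rewrite 2 [h1]
    rw [hT, ← Finset.sum_add_distrib]
    refine Finset.sum_eq_zero fun b _ => ?_
    rw [← Finset.sum_add_distrib]
    refine Finset.sum_eq_zero fun c _ => ?_
    rw [← smul_add, Matrix.mulVec_mulVec, Matrix.mulVec_mulVec, ← Matrix.add_mulVec, eW_anti,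
      Matrix.zero_mulVec, smul_zero]
  rw [← two_smul ℂ] at h2
  exact (smul_eq_zero.1 h2).resolve_left two_ne_zero

theorem eW_swap (a b : Fin n → ℂ) (τ : FI n → ℂ) : eW a *ᵥ (eW b *ᵥ τ) = -(eW b *ᵥ (eW a *ᵥ τ)) := by
  rw [eq_neg_iff_add_eq_zero, Matrix.mulVec_mulVec, Matrix.mulVec_mulVec, ← Matrix.add_mulVec,
    eW_anti, Matrix.zero_mulVec]

/-- `∂ (∂g_1 ∧ … ∧ ∂g_r) = 0` -/
theorem d_Wd {O : Set (Cn n)} (hO : IsOpen O) {z : Cn n} (hz : z ∈ O) :
    ∀ {r : ℕ} {g : Fin r → Cn n → ℂ}, (∀ k, ContDiffOn ℝ ∞ (g k) O) →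
      ∑ b, eW (ep b) *ᵥ dj b (Wd g) z = 0
  | 0, g, _ => by
    have : Wd g = fun _ => Pi.single ∅ 1 := funext fun z => wdg_nil _
    rw [this]
    simp [dj_const]
  | r + 1, g, hg => by
    have ih := d_Wd hO hz (g := fun k => g k.succ) fun k => hg k.succ
    set V := Wd fun k : Fin r => g k.succ with hV
    have hVd : DifferentiableAt ℝ V z :=
      ((Wd_smooth hO fun k => hg k.succ).contDiffAt (hO.mem_nhds hz)).differentiableAt (by simp)
    have hg0 : ∀ c, DifferentiableAt ℝ (dj c (g 0)) z := fun c =>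
      ((dj_contDiffOn hO (hg 0)).contDiffAt (hO.mem_nhds hz)).differentiableAt (by simp)
    have hL : ∀ c : Fin n, DifferentiableAt ℝ (fun w => mL (eW (ep c)) (V w)) z := fun c =>
      ((mL (eW (ep c))).restrictScalars ℝ).differentiableAt.comp z hVd
    have h1 : ∀ b, dj b (Wd g) z = ∑ c, (dj b (dj c (g 0)) z • (eW (ep c) *ᵥ V z) +
        dj c (g 0) z • (eW (ep c) *ᵥ dj b V z)) := fun b => by
      rw [Wd_succ, dj_sum (f := fun c w => dj c (g 0) w • mL (eW (ep c)) (V w))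
        fun c _ => (hg0 c).smul (hL c)]
      refine Finset.sum_congr rfl fun c _ => ?_
      rw [dj_smul (hg0 c) (hL c), dj_clm _ hVd]
      rfl
    simp only [h1, Matrix.mulVec_sum, Matrix.mulVec_add, Matrix.mulVec_smul,
      Finset.sum_add_distrib]
    rw [sym_anti (s := fun b c => dj b (dj c (g 0)) z)
      (fun b c => dj_comm ((hg 0).contDiffAt (hO.mem_nhds hz)) b c), zero_add, Finset.sum_comm]
    refine Finset.sum_eq_zero fun c _ => ?_
    rw [← Finset.smul_sum]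
    have h2 : ∑ b, eW (ep b) *ᵥ (eW (ep c) *ᵥ dj b V z) = 0 := by
      simp only [fun b => eW_swap (ep b) (ep c) (dj b V z), Finset.sum_neg_distrib,
        ← Matrix.mulVec_sum, ih, Matrix.mulVec_zero, neg_zero]
    rw [h2, smul_zero]

/-! ### limits -/

theorem exists_sub {α : Type*} [MeasurableSpace α] {μ : Measure α} {F : ℕ → α → ℝ≥0∞}
    (hF : ∀ k, AEMeasurable (F k) μ) (h : Tendsto (fun k => ∫⁻ x, F k x ∂μ) atTop (𝓝 0)) :
    ∃ φ : ℕ → ℕ, StrictMono φ ∧ ∀ᵐ x ∂μ, Tendsto (fun k => F (φ k) x) atTop (𝓝 0) := by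
  have h1 : ∀ k : ℕ, ∀ᶠ j in atTop, ∫⁻ x, F j x ∂μ ≤ (2⁻¹ : ℝ≥0∞) ^ k := fun k =>
    h.eventually (ge_mem_nhds (ENNReal.pow_pos (by simp) k))
  obtain ⟨φ, hφ, h2⟩ := extraction_forall_of_eventually h1
  refine ⟨φ, hφ, ?_⟩
  have h3 : ∫⁻ x, ∑' k, F (φ k) x ∂μ ≠ ⊤ := by
    rw [lintegral_tsum fun k => hF (φ k)]
    refine ne_top_of_le_ne_top ?_ (ENNReal.tsum_le_tsum h2)
    rw [ENNReal.tsum_geometric_two]
    simp
  filter_upwards [ae_lt_top' (AEMeasurable.tsum fun k => hF (φ k)) h3] with x hx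
  exact ENNReal.tendsto_atTop_zero_of_tsum_ne_top hx.ne

theorem tend_of_sq {u : ℕ → W} {s : W} (h : Tendsto (fun k => ‖u k - s‖ₑ ^ 2) atTop (𝓝 0)) :
    Tendsto u atTop (𝓝 s) := by
  have h1 := (ENNReal.continuous_rpow_const (y := (1 / 2 : ℝ))).tendsto 0 |>.comp h
  rw [ENNReal.zero_rpow_of_pos (by norm_num)] at h1
  rw [tendsto_iff_edist_tendsto_0]
  refine h1.congr fun k => ?_
  simp only [Function.comp, edist_eq_enorm_sub]
  rw [← ENNReal.rpow_natCast, ← ENNReal.rpow_mul]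
  norm_num

/-- Cauchy–Schwarz -/
theorem cs {α : Type*} [MeasurableSpace α] (μ : Measure α) {a : α → ℂ} {b : α → W}
    (ha : AEStronglyMeasurable a μ) (hb : AEStronglyMeasurable b μ) :
    ∫⁻ x, ‖a x • b x‖ₑ ∂μ ≤ (∫⁻ x, ‖a x‖ₑ ^ 2 ∂μ) ^ (1 / 2 : ℝ) *
      (∫⁻ x, ‖b x‖ₑ ^ 2 ∂μ) ^ (1 / 2 : ℝ) := by
  have h := ENNReal.lintegral_mul_le_Lp_mul_Lq μ Real.HolderConjugate.two_two ha.enorm hb.enorm
  simp only [Pi.mul_apply] at h
  simp only [enorm_smul]
  refine h.trans (le_of_eq ?_)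
  simp only [← ENNReal.rpow_natCast]
  norm_num

theorem smul_cont {O : Set (Cn n)} (hO : IsOpen O) {g : Cn n → W} {ψ : Cn n → ℂ}
    (hg : ContinuousOn g O) (hψ : Continuous ψ) (hs : tsupport ψ ⊆ O) :
    Continuous fun x => ψ x • g x := by
  rw [continuous_iff_continuousAt]
  intro x
  by_cases hx : x ∈ O
  · exact hψ.continuousAt.smul (hg.continuousAt (hO.mem_nhds hx))
  · have hx' : x ∉ tsupport ψ := fun h => hx (hs h)
    have h1 : (fun x => ψ x • g x) =ᶠ[𝓝 x] fun _ => 0 := by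
      filter_upwards [(isClosed_tsupport ψ).isOpen_compl.mem_nhds hx'] with y hy
      rw [image_eq_zero_of_notMem_tsupport hy, zero_smul]
    exact (continuousAt_const).congr h1.symm

theorem smul_int {O : Set (Cn n)} (hO : IsOpen O) {g : Cn n → W} {ψ : Cn n → ℂ}
    (hg : ContinuousOn g O) (hψ : Continuous ψ) (hc : HasCompactSupport ψ) (hs : tsupport ψ ⊆ O) :
    Integrable fun x => ψ x • g x :=
  (smul_cont hO hg hψ hs).integrable_of_hasCompactSupport hc.smul_right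

theorem sq_lt_top {K : Set (Cn n)} (hK : IsCompact K) {g : Cn n → W} (hg : ContinuousOn g K) :
    ∫⁻ z in K, ‖g z‖ₑ ^ 2 < ⊤ := by
  obtain ⟨C, hC⟩ := hK.exists_bound_of_continuousOn hg
  calc ∫⁻ z in K, ‖g z‖ₑ ^ 2 ≤ ∫⁻ _ in K, ENNReal.ofReal C ^ 2 := by
        refine setLIntegral_mono' hK.measurableSet fun z hz => ?_
        gcongr
        rw [← ofReal_norm]
        exact ENNReal.ofReal_le_ofReal (hC z hz)
    _ < ⊤ := by
        rw [setLIntegral_const]
        exact ENNReal.mul_lt_top (ENNReal.pow_lt_top ENNReal.ofReal_lt_top) hK.measure_lt_top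

/-- the pairing with a test function against the `L²` norm on a set containing the support -/
theorem pair_le {K : Set (Cn n)} {g : Cn n → W} {ψ : Cn n → ℂ}
    (hg : AEStronglyMeasurable g (volume.restrict K)) (hψ : Continuous ψ)
    (hs : ∀ z ∉ K, ψ z = 0) : ‖∫ z, ψ z • g z‖ₑ ≤
      (∫⁻ z in K, ‖ψ z‖ₑ ^ 2) ^ (1 / 2 : ℝ) * (∫⁻ z in K, ‖g z‖ₑ ^ 2) ^ (1 / 2 : ℝ) := by
  rw [← setIntegral_eq_integral_of_forall_compl_eq_zero (s := K) fun z hz => by
    rw [hs z hz, zero_smul]]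
  exact (enorm_integral_le_lintegral_enorm _).trans (cs _ hψ.aestronglyMeasurable hg)

theorem tend_pair0 {K : Set (Cn n)} (hK : IsCompact K) {g : ℕ → Cn n → W} {ψ : Cn n → ℂ}
    (hg : ∀ k, AEStronglyMeasurable (g k) (volume.restrict K)) (hψ : Continuous ψ)
    (hs : ∀ z ∉ K, ψ z = 0) (h : Tendsto (fun k => ∫⁻ z in K, ‖g k z‖ₑ ^ 2) atTop (𝓝 0)) :
    Tendsto (fun k => ∫ z, ψ z • g k z) atTop (𝓝 0) := by
  have t1 := (ENNReal.continuous_rpow_const (y := (1 / 2 : ℝ))).tendsto 0 |>.comp h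
  rw [ENNReal.zero_rpow_of_pos (by norm_num)] at t1
  have t2 := ENNReal.Tendsto.const_mul (a := (∫⁻ z in K, ‖ψ z‖ₑ ^ 2) ^ (1 / 2 : ℝ)) t1
    (Or.inr (ENNReal.rpow_ne_top_of_nonneg (by norm_num) (sq_lt_top hK hψ.continuousOn).ne))
  rw [mul_zero] at t2
  rw [tendsto_iff_edist_tendsto_0]
  refine tendsto_of_tendsto_of_tendsto_of_le_of_le tendsto_const_nhds t2 (fun _ => zero_le)
    fun k => ?_
  simp only [edist_zero_right]
  exact pair_le (hg k) hψ hs

/-- pairing with a test function is continuous for local `L²` convergence -/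
theorem tend_pair {O : Set (Cn n)} (hO : IsOpen O) {u : ℕ → Cn n → W} {S : Cn n → W}
    (hu : ∀ k, ContinuousOn (u k) O) (hS : ContinuousOn S O)
    (h : ∀ K ⊆ O, IsCompact K → Tendsto (fun k => ∫⁻ z in K, ‖u k z - S z‖ₑ ^ 2) atTop (𝓝 0))
    {ψ : Cn n → ℂ} (hψ : Continuous ψ) (hc : HasCompactSupport ψ) (hs : tsupport ψ ⊆ O) :
    Tendsto (fun k => ∫ z, ψ z • u k z) atTop (𝓝 (∫ z, ψ z • S z)) := by
  have h1 := tend_pair0 hc (g := fun k z => u k z - S z)
    (fun k => (((hu k).sub hS).mono hs).aestronglyMeasurable hc.measurableSet) hψ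
    (fun z hz => image_eq_zero_of_notMem_tsupport hz) (h _ hs hc)
  rw [← tendsto_sub_nhds_zero_iff]
  refine h1.congr fun k => ?_
  rw [← integral_sub (smul_int hO (hu k) hψ hc hs) (smul_int hO hS hψ hc hs)]
  simp only [smul_sub]

theorem fd_test {ψ : Cn n → ℂ} (hψ : ContDiff ℝ ∞ ψ) (hc : HasCompactSupport ψ) (v : Cn n) :
    Continuous (fun x => fderiv ℝ ψ x v) ∧ HasCompactSupport (fun x => fderiv ℝ ψ x v) ∧
      tsupport (fun x => fderiv ℝ ψ x v) ⊆ tsupport ψ :=
  ⟨(hψ.continuous_fderiv (by simp)).clm_apply continuous_const, hc.fderiv_apply ℝ v,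
    tsupport_fderiv_apply_subset ℝ v⟩

theorem dj_test {ψ : Cn n → ℂ} (hψ : ContDiff ℝ ∞ ψ) (hc : HasCompactSupport ψ) (b : Fin n) :
    Continuous (dj b ψ) ∧ HasCompactSupport (dj b ψ) ∧ tsupport (dj b ψ) ⊆ tsupport ψ := by
  have h3 : tsupport (dj b ψ) ⊆ tsupport ψ := by
    refine closure_minimal (fun x hx => ?_) (isClosed_tsupport ψ)
    by_contra hx'
    have h1 : fderiv ℝ ψ x = 0 := by
      by_contra h
      exact hx' (support_fderiv_subset ℝ h)
    exact hx (by simp [dj, h1])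
  refine ⟨?_, hc.of_isClosed_subset (isClosed_tsupport _) h3, h3⟩
  exact continuousOn_univ.1 (dj_contDiffOn isOpen_univ hψ.contDiffOn).continuousOn

theorem dbj_test {ψ : Cn n → ℂ} (hψ : ContDiff ℝ ∞ ψ) (hc : HasCompactSupport ψ) (b : Fin n) :
    Continuous (dbj b ψ) ∧ HasCompactSupport (dbj b ψ) ∧ tsupport (dbj b ψ) ⊆ tsupport ψ := by
  have h3 : tsupport (dbj b ψ) ⊆ tsupport ψ := by
    refine closure_minimal (fun x hx => ?_) (isClosed_tsupport ψ)
    by_contra hx'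
    have h1 : fderiv ℝ ψ x = 0 := by
      by_contra h
      exact hx' (support_fderiv_subset ℝ h)
    exact hx (by simp [dbj, h1])
  refine ⟨?_, hc.of_isClosed_subset (isClosed_tsupport _) h3, h3⟩
  exact continuousOn_univ.1
    (R275.OmT75.dbj_contDiffOn isOpen_univ hψ.contDiffOn).continuousOn

/-- integration by parts against a test function -/
theorem ibp [CompleteSpace W] {O : Set (Cn n)} (hO : IsOpen O) {F : Cn n → W} {ψ : Cn n → ℂ}
    (hF : ContDiffOn ℝ ∞ F O) (hψ : ContDiff ℝ ∞ ψ) (hc : HasCompactSupport ψ)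
    (hs : tsupport ψ ⊆ O) (v : Cn n) :
    ∫ x, ψ x • fderiv ℝ F x v = - ∫ x, fderiv ℝ ψ x v • F x := by
  obtain ⟨c1, c2, c3⟩ := fd_test hψ hc v
  have c4 : ContinuousOn (fun x => fderiv ℝ F x v) O :=
    (hF.continuousOn_fderiv_of_isOpen hO (by simp)).clm_apply continuousOn_const
  have h := integral_bilinear_hasFDerivAt_right_eq_neg_left_of_integrable (μ := volume)
    (f := F) (g := ψ) (v := v) (B := (ContinuousLinearMap.lsmul ℝ ℂ : ℂ →L[ℝ] W →L[ℝ] W).flip)
    (f' := fun x => fderiv ℝ F x) (g' := fun x => fderiv ℝ ψ x)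
    (smul_int hO c4 hψ.continuous hc hs) (smul_int hO hF.continuousOn c1 c2 (c3.trans hs))
    (smul_int hO hF.continuousOn hψ.continuous hc hs)
    (fun x hx => (((hF.contDiffAt (hO.mem_nhds (hs hx))).differentiableAt (by simp))).hasFDerivAt)
    (fun x _ => ((hψ.differentiable (by simp)) x).hasFDerivAt)
  rw [eq_neg_iff_add_eq_zero, add_comm, ← eq_neg_iff_add_eq_zero]
  exact h

theorem int_dj [CompleteSpace W] {O : Set (Cn n)} (hO : IsOpen O) {F : Cn n → W} {ψ : Cn n → ℂ}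
    (hF : ContDiffOn ℝ ∞ F O) (hψ : ContDiff ℝ ∞ ψ) (hc : HasCompactSupport ψ)
    (hs : tsupport ψ ⊆ O) (b : Fin n) :
    ∫ x, ψ x • dj b F x = - ∫ x, dj b ψ x • F x := by
  have c4 : ∀ v, ContinuousOn (fun x => fderiv ℝ F x v) O := fun v =>
    (hF.continuousOn_fderiv_of_isOpen hO (by simp)).clm_apply continuousOn_const
  have i1 : ∀ v, Integrable fun x => ψ x • fderiv ℝ F x v := fun v =>
    smul_int hO (c4 v) hψ.continuous hc hs
  have i2 : ∀ v, Integrable fun x => fderiv ℝ ψ x v • F x := fun v =>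
    smul_int hO hF.continuousOn (fd_test hψ hc v).1 (fd_test hψ hc v).2.1
      ((fd_test hψ hc v).2.2.trans hs)
  have e1 : ∀ x, ψ x • dj b F x = (1 / 2 : ℂ) • (ψ x • fderiv ℝ F x (EuclideanSpace.single b 1) -
      I • (ψ x • fderiv ℝ F x (EuclideanSpace.single b I))) := fun x => by
    unfold dj; module
  have e2 : ∀ x, dj b ψ x • F x = (1 / 2 : ℂ) • (fderiv ℝ ψ x (EuclideanSpace.single b 1) • F x -
      I • (fderiv ℝ ψ x (EuclideanSpace.single b I) • F x)) := fun x => by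
    unfold dj; simp only [smul_eq_mul]; module
  simp only [e1, e2]
  have j1 : ∀ v, Integrable fun x => I • (ψ x • fderiv ℝ F x v) := fun v => (i1 v).smul I
  have j2 : ∀ v, Integrable fun x => I • (fderiv ℝ ψ x v • F x) := fun v => (i2 v).smul I
  rw [integral_smul, integral_smul, integral_sub (i1 _) (j1 _), integral_sub (i2 _) (j2 _),
    integral_smul, integral_smul, ibp hO hF hψ hc hs,
    ibp hO hF hψ hc hs]
  module

theorem int_dbj [CompleteSpace W] {O : Set (Cn n)} (hO : IsOpen O) {F : Cn n → W} {ψ : Cn n → ℂ}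
    (hF : ContDiffOn ℝ ∞ F O) (hψ : ContDiff ℝ ∞ ψ) (hc : HasCompactSupport ψ)
    (hs : tsupport ψ ⊆ O) (b : Fin n) :
    ∫ x, ψ x • dbj b F x = - ∫ x, dbj b ψ x • F x := by
  have c4 : ∀ v, ContinuousOn (fun x => fderiv ℝ F x v) O := fun v =>
    (hF.continuousOn_fderiv_of_isOpen hO (by simp)).clm_apply continuousOn_const
  have i1 : ∀ v, Integrable fun x => ψ x • fderiv ℝ F x v := fun v =>
    smul_int hO (c4 v) hψ.continuous hc hs
  have i2 : ∀ v, Integrable fun x => fderiv ℝ ψ x v • F x := fun v =>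
    smul_int hO hF.continuousOn (fd_test hψ hc v).1 (fd_test hψ hc v).2.1
      ((fd_test hψ hc v).2.2.trans hs)
  have e1 : ∀ x, ψ x • dbj b F x = (1 / 2 : ℂ) • (ψ x • fderiv ℝ F x (EuclideanSpace.single b 1) +
      I • (ψ x • fderiv ℝ F x (EuclideanSpace.single b I))) := fun x => by
    unfold dbj; module
  have e2 : ∀ x, dbj b ψ x • F x = (1 / 2 : ℂ) • (fderiv ℝ ψ x (EuclideanSpace.single b 1) • F x +
      I • (fderiv ℝ ψ x (EuclideanSpace.single b I) • F x)) := fun x => by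
    unfold dbj; simp only [smul_eq_mul]; module
  simp only [e1, e2]
  have j1 : ∀ v, Integrable fun x => I • (ψ x • fderiv ℝ F x v) := fun v => (i1 v).smul I
  have j2 : ∀ v, Integrable fun x => I • (fderiv ℝ ψ x v • F x) := fun v => (i2 v).smul I
  rw [integral_smul, integral_smul, integral_add (i1 _) (j1 _), integral_add (i2 _) (j2 _),
    integral_smul, integral_smul, ibp hO hF hψ hc hs,
    ibp hO hF hψ hc hs]
  module

/-- a continuous function orthogonal to the test functions vanishes -/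
theorem zero_of_test [CompleteSpace W] {O : Set (Cn n)} (hO : IsOpen O) {g : Cn n → W}
    (hg : ContinuousOn g O) (h : ∀ ψ : Cn n → ℂ, ContDiff ℝ ∞ ψ → HasCompactSupport ψ →
      tsupport ψ ⊆ O → ∫ z, ψ z • g z = 0) : ∀ z ∈ O, g z = 0 := by
  have h1 := hO.ae_eq_zero_of_integral_contDiff_smul_eq_zero (μ := volume)
    (hg.locallyIntegrableOn hO.measurableSet) fun φ h1 h2 h3 => by
      have h4 := h (fun z => (φ z : ℂ)) (ofRealCLM.contDiff.comp h1)
        (h2.comp_left (g := fun t : ℝ => (t : ℂ)) (by simp))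
        ((closure_mono (Function.support_comp_subset (g := fun t : ℝ => (t : ℂ)) (by simp) φ)).trans
          h3)
      simpa only [Complex.coe_smul] using h4
  have h2 : g =ᵐ[volume.restrict O] fun _ => 0 := (ae_restrict_iff' hO.measurableSet).2 h1
  exact Measure.eqOn_open_of_ae_eq h2 hO hg continuousOn_const

end

end Crest.Agent.X261.Fam20
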