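import Crest.Agent.X261.Fam20.A

/-!
# X261, package FAM, part POST (helper20), file `B`: consequences of `Rel.Lim`

The pointwise identities of the forms `∂f ∧ τ` pass to the holomorphic limit:
`tr`, `deg`, `hor`, `closed`, `map` (naturality), `eqv`, `uniq`.
-/

set_option autoImplicit false
set_option linter.unusedSectionVars false
set_option linter.dupNamespace false

open Set Filter Topology Complex Matrix MeasureTheory
open scoped ENNReal InnerProductSpace ContDiff

namespace Crest.Agent.X261.Fam20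

open Crest.Agent.R275.Geo Crest.Agent.R275.Core144
open Crest.Agent.R275.OmT75 (dj dl dj_congr dj_sum dj_pi dj_contDiffOn dl_chain tr tr_val
  J_smooth tr_diffAt)
open Crest.Agent.R273.UCov_914
open Crest.Agent.R273.Fock_243 (FI Gam eW iW ep eW_anti eW_sq eW_eq_sum Gam_eW)
open Crest.Agent.X261.Top (wdg dW HolV)
open Crest.Agent.X261.Gauss (mv dV)
open Crest.Agent.X261.Rel (aV tw Lim)
open Crest.Agent.X261.Rel.Act (Act)
open Crest.Agent.X261.Jet.Tb (wdg_cons dg_wdg eW_wdg Gam_wdg)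

noncomputable section

variable {n q : ℕ} {H H' : Type} [NormedAddCommGroup H] [InnerProductSpace ℂ H]
  [NormedAddCommGroup H'] [InnerProductSpace ℂ H']

/-! ### algebra -/

/-- `θ ∧ τ` for a vector valued covector `θ` -/
def wv (τ : FI n → ℂ) (θ : Fin n → H) : FI n → H := fun I => ∑ b, (eW (ep b) *ᵥ τ) I • θ b

theorem mv_wv (B : Matrix (FI n) (FI n) ℂ) (τ : FI n → ℂ) (θ : Fin n → H) :
    mv B (wv τ θ) = fun I => ∑ b, (B *ᵥ (eW (ep b) *ᵥ τ)) I • θ b := by
  funext I
  simp only [mv, wv, Finset.smul_sum, smul_smul]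
  rw [Finset.sum_comm]
  refine Finset.sum_congr rfl fun b _ => ?_
  rw [← Finset.sum_smul]
  rfl

theorem wv_deg (θ' : Fin q → Fin n → ℂ) (θ : Fin n → H) {I : FI n} (hI : I.card ≠ q + 1) :
    wv (wdg θ') θ I = 0 := by
  refine Finset.sum_eq_zero fun b _ => ?_
  have h1 : eW (ep b) *ᵥ wdg θ' = wdg (Fin.cons (ep b) θ' : Fin (q + 1) → Fin n → ℂ) := by
    rw [wdg_cons]; rfl
  rw [h1, dg_wdg _ I hI, zero_smul]

theorem wv_hor (θ' : Fin q → Fin n → ℂ) (θ : Fin n → H) (k : Fin q) :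
    mv (eW (θ' k)) (wv (wdg θ') θ) = 0 := by
  rw [mv_wv]
  funext I
  simp only [fun b => eW_swap (θ' k) (ep b) (wdg θ'), eW_wdg, Matrix.mulVec_zero, neg_zero,
    Pi.zero_apply, zero_smul, Finset.sum_const_zero]

theorem wv_tr (B : Matrix (Fin n) (Fin n) ℂ) (τ : FI n → ℂ) (θ : Fin n → H) :
    mv (Gam B) (wv τ θ) = wv (Gam B *ᵥ τ) fun b => ∑ c, B b c • θ c := by
  rw [mv_wv]
  funext I
  simp only [wv, Finset.smul_sum, smul_smul]
  rw [Finset.sum_comm]
  refine Finset.sum_congr rfl fun c _ => ?_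
  rw [← Finset.sum_smul, Matrix.mulVec_mulVec, Gam_eW, ← Matrix.mulVec_mulVec, eW_mulVec,
    Finset.sum_apply]
  congr 1
  refine Finset.sum_congr rfl fun b _ => ?_
  rw [Pi.smul_apply, smul_eq_mul, mul_comm]
  congr 1
  simp [ep]

theorem wv_clm (L : H →L[ℂ] H') (τ : FI n → ℂ) (θ : Fin n → H) (I : FI n) :
    L (wv τ θ I) = wv τ (fun b => L (θ b)) I := by
  simp only [wv, map_sum, map_smul]

theorem wv_scalar (τ : FI n → ℂ) (θ : Fin n → ℂ) : wv τ θ = eW θ *ᵥ τ := by
  funext I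
  rw [eW_mulVec, Finset.sum_apply]
  exact Finset.sum_congr rfl fun b _ => by simp [mul_comm]

theorem mv_tendsto {α : Type*} {l : Filter α} {B : α → Matrix (FI n) (FI n) ℂ}
    {B₀ : Matrix (FI n) (FI n) ℂ} {u : α → FI n → H} {s : FI n → H}
    (hB : ∀ I J, Tendsto (fun k => B k I J) l (𝓝 (B₀ I J)))
    (h : ∀ I, Tendsto (fun k => u k I) l (𝓝 (s I))) (I : FI n) :
    Tendsto (fun k => mv (B k) (u k) I) l (𝓝 (mv B₀ s I)) :=
  tendsto_finsetSum _ fun J _ => (hB I J).smul (h J)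

/-! ### the flat form -/

/-- `∂F ∧ ∂a_1 ∧ … ∧ ∂a_q` -/
def fw (a : Cn n → Cn q) (F : Cn n → H) (z : Cn n) : FI n → H :=
  wv (Wd (fun k w => a w k) z) fun b => dj b F z

theorem comp_smooth {O : Set (Cn n)} {a : Cn n → Cn q} (ha : ContDiffOn ℝ ∞ a O) (k : Fin q) :
    ContDiffOn ℝ ∞ (fun w => a w k) O :=
  ((EuclideanSpace.proj k : Cn q →L[ℂ] ℂ).restrictScalars ℝ).contDiff.comp_contDiffOn ha

theorem fw_smooth {O : Set (Cn n)} (hO : IsOpen O) {a : Cn n → Cn q} {F : Cn n → H}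
    (ha : ContDiffOn ℝ ∞ a O) (hF : ContDiffOn ℝ ∞ F O) (I : FI n) :
    ContDiffOn ℝ ∞ (fun z => fw a F z I) O := by
  unfold fw wv
  refine ContDiffOn.sum fun b _ => ?_
  have h1 := ((mL (eW (ep b))).restrictScalars ℝ).contDiff.comp_contDiffOn
    (Wd_smooth hO (comp_smooth ha))
  exact (contDiffOn_pi.1 h1 I).smul (dj_contDiffOn hO hF)

theorem fw_clm (L : H →L[ℂ] H') (a : Cn n → Cn q) {F : Cn n → H} {z : Cn n}
    (hF : DifferentiableAt ℝ F z) (I : FI n) : L (fw a F z I) = fw a (fun w => L (F w)) z I := by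
  simp only [fw, wv_clm, dj_clm L hF]

theorem fw_scalar (a : Cn n → Cn q) (F : Cn n → ℂ) (z : Cn n) :
    fw a F z = Wd (Fin.cons F fun k w => a w k : Fin (q + 1) → Cn n → ℂ) z := by
  rw [fw, wv_scalar, Wd, Wd, wdg_cons]
  rfl

/-- the limit of `∂F_k ∧ ∂a` is `∂`-closed (scalar case) -/
theorem closed_scalar {O : Set (Cn n)} (hO : IsOpen O) {a : Cn n → Cn q} {F : ℕ → Cn n → ℂ}
    {S : Cn n → FI n → ℂ} (ha : ContDiffOn ℝ ∞ a O) (hF : ∀ k, ContDiffOn ℝ ∞ (F k) O)
    (hS : ∀ I, ContDiffOn ℝ ∞ (fun z => S z I) O)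
    (h : ∀ K ⊆ O, IsCompact K → ∀ I,
      Tendsto (fun k => ∫⁻ z in K, ‖fw a (F k) z I - S z I‖ₑ ^ 2) atTop (𝓝 0))
    (I : FI n) : ∀ z ∈ O, ∑ b, ∑ J, (eW (ep b) I J : ℂ) • dj b (fun w => S w J) z = 0 := by
  have key : ∀ T : Cn n → FI n → ℂ, (∀ J, ContDiffOn ℝ ∞ (fun z => T z J) O) →
      ∀ ψ : Cn n → ℂ, ContDiff ℝ ∞ ψ → HasCompactSupport ψ → tsupport ψ ⊆ O →
      ∫ z, ψ z • ∑ b, ∑ J, (eW (ep b) I J : ℂ) • dj b (fun w => T w J) z =
        ∑ b, ∑ J, (eW (ep b) I J : ℂ) • -∫ z, dj b ψ z • T z J := by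
    intro T hT ψ h1 h2 h3
    have i1 : ∀ (b : Fin n) (J : FI n), Integrable fun z =>
        (eW (ep b) I J : ℂ) • (ψ z • dj b (fun w => T w J) z) := fun b J =>
      (smul_int hO (dj_contDiffOn hO (hT J)).continuousOn h1.continuous h2 h3).smul
        (eW (ep b) I J : ℂ)
    simp only [Finset.smul_sum, smul_comm (ψ _)]
    rw [integral_finsetSum _ fun b _ => integrable_finsetSum _ fun J _ => i1 b J]
    refine Finset.sum_congr rfl fun b _ => ?_
    rw [integral_finsetSum _ fun J _ => i1 b J]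
    refine Finset.sum_congr rfl fun J _ => ?_
    rw [integral_smul, int_dj hO (hT J) h1 h2 h3]
  refine zero_of_test hO (continuousOn_finsetSum _ fun b _ => continuousOn_finsetSum _
    fun J _ => (dj_contDiffOn hO (hS J)).continuousOn.const_smul (eW (ep b) I J : ℂ))
    fun ψ h1 h2 h3 => ?_
  rw [key S hS ψ h1 h2 h3]
  have t1 : Tendsto (fun k => ∑ b, ∑ J, (eW (ep b) I J : ℂ) • -∫ z, dj b ψ z • fw a (F k) z J) atTop
      (𝓝 (∑ b, ∑ J, (eW (ep b) I J : ℂ) • -∫ z, dj b ψ z • S z J)) := by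
    refine tendsto_finsetSum _ fun b _ => tendsto_finsetSum _ fun J _ => ?_
    obtain ⟨c1, c2, c3⟩ := dj_test h1 h2 b
    exact (tend_pair hO (fun k => (fw_smooth hO ha (hF k) J).continuousOn) (hS J).continuousOn
      (fun K hK hc => h K hK hc J) c1 c2 (c3.trans h3)).neg.const_smul _
  refine tendsto_nhds_unique t1 (tendsto_const_nhds.congr fun k => ?_)
  rw [← key _ (fw_smooth hO ha (hF k)) ψ h1 h2 h3]
  symm
  refine integral_eq_zero_of_ae (Eventually.of_forall fun z => ?_)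
  by_cases hz : z ∈ O
  · set g : Fin (q + 1) → Cn n → ℂ := Fin.cons (F k) fun k w => a w k with hg
    have hgs : ∀ j, ContDiffOn ℝ ∞ (g j) O := fun j => by
      refine Fin.cases ?_ (fun j => ?_) j
      · exact hF k
      · exact comp_smooth ha j
    have h4 := congrFun (d_Wd hO hz hgs) I
    have h5 : DifferentiableAt ℝ (Wd g) z :=
      ((Wd_smooth hO hgs).contDiffAt (hO.mem_nhds hz)).differentiableAt (by simp)
    have h6 : ∑ b, ∑ J, (eW (ep b) I J : ℂ) • dj b (fun w => fw a (F k) w J) z = 0 := by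
      rw [Finset.sum_apply] at h4
      refine Eq.trans (Finset.sum_congr rfl fun b _ => ?_) h4
      refine Finset.sum_congr rfl fun J _ => ?_
      simp only [fw_scalar]
      rw [dj_pi h5 J]
      rfl
    simp only [h6, smul_zero, Pi.zero_apply]
  · simp only [image_eq_zero_of_notMem_tsupport fun h => hz (h3 h), zero_smul, Pi.zero_apply]

theorem enorm_clm_le (L : H →L[ℂ] H') (x : H) : ‖L x‖ₑ ^ 2 ≤ ‖L‖ₑ ^ 2 * ‖x‖ₑ ^ 2 := by
  rw [← mul_pow]
  gcongr
  exact L.le_opENorm x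

theorem tend_clm {α : Type*} [MeasurableSpace α] {μ : Measure α} (L : H →L[ℂ] H')
    {u : ℕ → α → H} (h : Tendsto (fun k => ∫⁻ z, ‖u k z‖ₑ ^ 2 ∂μ) atTop (𝓝 0)) :
    Tendsto (fun k => ∫⁻ z, ‖L (u k z)‖ₑ ^ 2 ∂μ) atTop (𝓝 0) := by
  have h1 := ENNReal.Tendsto.const_mul (a := ‖L‖ₑ ^ 2) h (Or.inr (by simp))
  rw [mul_zero] at h1
  refine tendsto_of_tendsto_of_tendsto_of_le_of_le tendsto_const_nhds h1 (fun _ => zero_le)
    fun k => ?_
  rw [← lintegral_const_mul' _ _ (by simp)]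
  exact lintegral_mono fun z => enorm_clm_le L _

theorem hol_smooth_clm {O : Set (Cn n)} (hO : IsOpen O) {S : Cn n → H}
    (hS : DifferentiableOn ℂ S O) (L : H →L[ℂ] ℂ) : ContDiffOn ℝ ∞ (fun z => L (S z)) O := by
  have h1 : DifferentiableOn ℂ (fun z => L (S z)) O := L.differentiable.comp_differentiableOn hS
  exact ((R266.SCV.analyticOnNhd_of_differentiableOn hO h1).contDiffOn_of_completeSpace
    (n := ∞)).restrict_scalars ℝ

/-- the holomorphic limit of `∂F_k ∧ ∂a` is `∂`-closed -/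
theorem closed_flat {O : Set (Cn n)} (hO : IsOpen O) {a : Cn n → Cn q} {F : ℕ → Cn n → H}
    {S : Cn n → FI n → H} (ha : ContDiffOn ℝ ∞ a O) (hF : ∀ k, ContDiffOn ℝ ∞ (F k) O)
    (hS : ∀ I, DifferentiableOn ℂ (fun z => S z I) O)
    (h : ∀ K ⊆ O, IsCompact K → ∀ I,
      Tendsto (fun k => ∫⁻ z in K, ‖fw a (F k) z I - S z I‖ₑ ^ 2) atTop (𝓝 0))
    {z : Cn n} (hz : z ∈ O) : ∑ b, mv (eW (ep b)) (fun I => dj b (fun w => S w I) z) = 0 := by
  funext I
  refine ext_inner_left ℂ fun ξ => ?_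
  set L : H →L[ℂ] ℂ := innerSL ℂ ξ with hL
  have h1 := closed_scalar hO (F := fun k w => L (F k w)) (S := fun w J => L (S w J)) ha
    (fun k => (L.restrictScalars ℝ).contDiff.comp_contDiffOn (hF k))
    (fun J => hol_smooth_clm hO (hS J) L) (fun K hK hc J => ?_) I z hz
  · change L _ = L _
    rw [Finset.sum_apply, map_sum, Pi.zero_apply, map_zero]
    refine Eq.trans (Finset.sum_congr rfl fun b _ => ?_) h1
    rw [mv, map_sum]
    refine Finset.sum_congr rfl fun J _ => ?_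
    rw [map_smul, dj_clm L (((hS J).differentiableAt (hO.mem_nhds hz)).restrictScalars ℝ)]
  · refine (tend_clm L (h K hK hc J)).congr fun k => ?_
    refine setLIntegral_congr_fun hc.measurableSet fun w hw => ?_
    rw [map_sub, fw_clm L a
      (((hF k).contDiffAt (hO.mem_nhds (hK hw))).differentiableAt (by simp))]

/-! ### on the manifold -/

variable {X : Type} [TopologicalSpace X] {A : Atl n X} {G : Type} [Group G] {D : MonD A G}

/-- reading in the chart `i` on the sheet `v` -/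
abbrev rdv {W : Type*} (D : MonD A G) (f : D.cov G → W) (i : A.ι) (v : G) : Cn n → W :=
  fun z => f (D.pt i v ((A.e i).symm z))

theorem tw_eq (al : D.cov G → Cn q) (f : D.cov G → H) (i : A.ι) (v : G) (x : X) :
    tw D al f i v x = fw (rdv D al i v) (rdv D f i v) (A.e i x) := rfl

theorem tw_eq' (al : D.cov G → Cn q) (f : D.cov G → H) {i : A.ι} (v : G) {z : Cn n}
    (hz : z ∈ (A.e i).target) :
    tw D al f i v ((A.e i).symm z) = fw (rdv D al i v) (rdv D f i v) z := by
  rw [tw_eq, (A.e i).right_inv hz]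

theorem tw_wv (al : D.cov G → Cn q) (f : D.cov G → H) (i : A.ι) (v : G) (x : X) :
    tw D al f i v x = wv (wdg (dV A i (aV D al i v) x)) fun b => dl A i b (aV D f i v) x := rfl

theorem hal_hol {al : D.cov G → Cn q} (hal : HolV (D.atl G) univ al) (i : A.ι) (v : G) :
    DifferentiableOn ℂ (rdv D al i v) (A.e i).target := by
  have := hal (i, v)
  rw [preimage_univ, inter_univ] at this
  exact this

theorem hal_sm {al : D.cov G → Cn q} (hal : HolV (D.atl G) univ al) : (D.atl G).Sm al :=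
  fun p => ((R266.SCV.analyticOnNhd_of_differentiableOn (A.e p.1).open_target
    (hal_hol hal p.1 p.2)).contDiffOn_of_completeSpace (n := ∞)).restrict_scalars ℝ

theorem sm_rdv {W : Type*} [NormedAddCommGroup W] [NormedSpace ℝ W] {f : D.cov G → W}
    (hf : (D.atl G).Sm f) (i : A.ι) (v : G) : ContDiffOn ℝ ∞ (rdv D f i v) (A.e i).target :=
  hf (i, v)

theorem tw_smooth {al : D.cov G → Cn q} {f : D.cov G → H} (hal : (D.atl G).Sm al)
    (hf : (D.atl G).Sm f) (i : A.ι) (v : G) (I : FI n) :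
    ContDiffOn ℝ ∞ (fun z => tw D al f i v ((A.e i).symm z) I) (A.e i).target :=
  (fw_smooth (A.e i).open_target (sm_rdv hal i v) (sm_rdv hf i v) I).congr fun z hz => by
    rw [tw_eq' al f v hz]

variable {al al' : D.cov G → Cn q} {f : ℕ → D.cov G → H} {S : A.ι → G → X → FI n → H}
  {f' : ℕ → D.cov G → H'} {S' : A.ι → G → X → FI n → H'}

theorem lim_comp (h : Lim D al f S) {φ : ℕ → ℕ} (hφ : StrictMono φ) :
    Lim D al (fun k => f (φ k)) S :=
  ⟨fun k => h.f_sm (φ k), h.S_hol, fun i v K hK hc I => (h.lim i v K hK hc I).comp hφ.tendsto_atTop⟩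

/-- pointwise convergence -/
def Cv (D : MonD A G) (al : D.cov G → Cn q) (f : ℕ → D.cov G → H) (S : A.ι → G → X → FI n → H)
    (i : A.ι) (v : G) (x : X) : Prop :=
  ∀ I, Tendsto (fun k => tw D al (f k) i v x I) atTop (𝓝 (S i v x I))

theorem lim_sub (hal : (D.atl G).Sm al) (h : Lim D al f S) (i : A.ι) (v : G) {K : Set (Cn n)}
    (hK : K ⊆ (A.e i).target) (hc : IsCompact K) : ∃ φ : ℕ → ℕ, StrictMono φ ∧
      ∀ᵐ z, z ∈ K → Cv D al (fun k => f (φ k)) S i v ((A.e i).symm z) := by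
  have hm : ∀ k I, AEMeasurable (fun z => ‖tw D al (f k) i v ((A.e i).symm z) I -
      S i v ((A.e i).symm z) I‖ₑ ^ 2) (volume.restrict K) := fun k I =>
    ((((tw_smooth hal (h.f_sm k) i v I).continuousOn.sub (h.S_hol i v I).continuousOn).mono
      hK).aestronglyMeasurable hc.measurableSet).enorm.pow_const 2
  obtain ⟨φ, hφ, h1⟩ := exists_sub (μ := volume.restrict K) (F := fun k z => ∑ I,
    ‖tw D al (f k) i v ((A.e i).symm z) I - S i v ((A.e i).symm z) I‖ₑ ^ 2)
    (fun k => Finset.aemeasurable_fun_sum _ fun I _ => hm k I) (by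
      have h2 := tendsto_finsetSum (Finset.univ : Finset (FI n))
        fun I _ => h.lim i v K hK hc I
      rw [Finset.sum_const_zero] at h2
      refine h2.congr fun k => ?_
      rw [lintegral_finsetSum' _ fun I _ => hm k I])
  refine ⟨φ, hφ, ?_⟩
  rw [ae_restrict_iff' hc.measurableSet] at h1
  filter_upwards [h1] with z hz hzK I
  refine tend_of_sq (tendsto_of_tendsto_of_tendsto_of_le_of_le tendsto_const_nhds (hz hzK)
    (fun _ => zero_le) fun k => ?_)
  exact Finset.single_le_sum (f := fun I => ‖tw D al (f (φ k)) i v ((A.e i).symm z) I -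
    S i v ((A.e i).symm z) I‖ₑ ^ 2) (fun _ _ => zero_le) (Finset.mem_univ I)

/-- simultaneous convergence in two charts at points close to a given one -/
theorem freq (hal : (D.atl G).Sm al) (hal' : (D.atl G).Sm al') (h : Lim D al f S)
    (h' : Lim D al' f' S') {i j : A.ι} (v w : G) {x : X}
    (hx : x ∈ (A.e i).source ∩ (A.e j).source) : ∃ᶠ y in 𝓝 x, ∃ φ : ℕ → ℕ,
      Cv D al (fun k => f (φ k)) S i v y ∧ Cv D al' (fun k => f' (φ k)) S' j w y := by
  have hz : A.e i x ∈ A.ov i j := mem_ov hx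
  obtain ⟨r, hr, hK⟩ := Metric.nhds_basis_closedBall.mem_iff.1 ((isOpen_ov i j).mem_nhds hz)
  set K := Metric.closedBall (A.e i x) r with hKd
  have hc : IsCompact K := isCompact_closedBall _ _
  have hd : DifferentiableOn ℝ (tr A i j) K := fun z hz =>
    ((tr_diffAt (hK hz)).restrictScalars ℝ).differentiableWithinAt
  have hc' : IsCompact (tr A i j '' K) := hc.image_of_continuousOn hd.continuousOn
  have hK' : tr A i j '' K ⊆ A.ov j i := by
    rintro _ ⟨z, hz, rfl⟩
    have h1 := (hK hz).2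
    refine ⟨(A.e j).map_source h1, ?_⟩
    change (A.e j).symm (A.e j ((A.e i).symm z)) ∈ _
    rw [(A.e j).left_inv h1]
    exact (A.e i).map_target (hK hz).1
  obtain ⟨φ, hφ, h1⟩ := lim_sub hal h i v (fun z hz => (hK hz).1) hc
  obtain ⟨ψ, hψ, h2⟩ := lim_sub hal' (lim_comp h' hφ) j w (fun z hz => (hK' hz).1) hc'
  set N := {z | ¬(z ∈ tr A i j '' K →
    Cv D al' (fun k => f' (φ (ψ k))) S' j w ((A.e j).symm z))} with hN
  have hN0 : volume N = 0 := h2
  have hNK : N ⊆ A.ov j i := fun z hz => hK' (by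
    by_contra h3
    exact hz fun h4 => absurd h4 h3)
  have h3 : volume (tr A j i '' N) = 0 :=
    addHaar_image_eq_zero_of_differentiableOn_of_addHaar_eq_zero volume (fun z hz =>
      ((tr_diffAt (hNK hz)).restrictScalars ℝ).differentiableWithinAt) hN0
  have h4 : ∀ᵐ z, z ∈ K → ∃ φ : ℕ → ℕ, Cv D al (fun k => f (φ k)) S i v ((A.e i).symm z) ∧
      Cv D al' (fun k => f' (φ k)) S' j w ((A.e i).symm z) := by
    filter_upwards [h1, measure_eq_zero_iff_ae_notMem.1 h3] with z hz1 hz2 hzK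
    have e1 : (A.e j).symm (tr A i j z) = (A.e i).symm z := (A.e j).left_inv (hK hzK).2
    refine ⟨fun k => φ (ψ k), fun I => (hz1 hzK I).comp hψ.tendsto_atTop, ?_⟩
    by_contra h5
    refine hz2 ⟨tr A i j z, fun h6 => h5 ?_, ?_⟩
    · rw [← e1]
      exact h6 (mem_image_of_mem _ hzK)
    · change A.e i ((A.e j).symm (tr A i j z)) = z
      rw [e1, (A.e i).right_inv (hK hzK).1]
  have h5 : ∃ᶠ z in 𝓝 (A.e i x), ∃ φ : ℕ → ℕ, Cv D al (fun k => f (φ k)) S i v ((A.e i).symm z) ∧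
      Cv D al' (fun k => f' (φ k)) S' j w ((A.e i).symm z) := by
    have h6 := mem_closure_iff_frequently.1 (Measure.dense_of_ae h4 (A.e i x))
    exact (h6.and_eventually (Metric.closedBall_mem_nhds _ hr)).mono fun z hz => hz.1 hz.2
  have h7 : Tendsto (A.e i).symm (𝓝 (A.e i x)) (𝓝 x) := (A.e i).tendsto_symm hx.1
  exact h7.frequently h5

theorem cont_of_chart {W : Type*} [TopologicalSpace W] {i : A.ι} {g : X → W} {O : Set (Cn n)}
    (hO : IsOpen O) (hg : ContinuousOn (fun z => g ((A.e i).symm z)) O) {x : X}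
    (hx : x ∈ (A.e i).source) (hxO : A.e i x ∈ O) : ContinuousAt g x := by
  have h1 : ContinuousAt (fun y => g ((A.e i).symm (A.e i y))) x :=
    ContinuousAt.comp (f := A.e i) (hg.continuousAt (hO.mem_nhds hxO)) ((A.e i).continuousAt hx)
  refine h1.congr ?_
  filter_upwards [(A.e i).open_source.mem_nhds hx] with y hy
  rw [(A.e i).left_inv hy]

theorem S_cont (h : Lim D al f S) {i : A.ι} (v : G) {x : X} (hx : x ∈ (A.e i).source) (I : FI n) :
    ContinuousAt (fun y => S i v y I) x :=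
  cont_of_chart (A.e i).open_target (h.S_hol i v I).continuousOn hx ((A.e i).map_source hx)

theorem dV_cont (hal : (D.atl G).Sm al) {i : A.ι} (v : G) {x : X} (hx : x ∈ (A.e i).source)
    (k : Fin q) (b : Fin n) : ContinuousAt (fun y => dV A i (aV D al i v) y k b) x := by
  refine cont_of_chart (A.e i).open_target ?_ hx ((A.e i).map_source hx)
  refine (dj_contDiffOn (a := b) (A.e i).open_target
    (comp_smooth (sm_rdv hal i v) k)).continuousOn.congr fun z hz => ?_
  simp only [dV, dl, (A.e i).right_inv hz]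
  rfl

/-- field `deg` of `Rel.Min` -/
theorem deg (hal : HolV (D.atl G) univ al) (h : Lim D al f S) :
    ∀ i v, ∀ x ∈ (A.e i).source, ∀ I : FI n, I.card ≠ q + 1 → S i v x I = 0 := by
  intro i v x hx I hI
  refine tendsto_nhds_unique_of_frequently_eq (S_cont h v hx I) tendsto_const_nhds
    ((freq (hal_sm hal) (hal_sm hal) h h v v ⟨hx, hx⟩).mono ?_)
  rintro y ⟨φ, h1, -⟩
  refine tendsto_nhds_unique (h1 I) (tendsto_const_nhds.congr fun k => ?_)
  rw [tw_wv, wv_deg _ _ hI]

theorem eW_cont {α : Type*} {l : Filter α} {a : α → Fin n → ℂ} {a₀ : Fin n → ℂ}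
    (h : ∀ b, Tendsto (fun k => a k b) l (𝓝 (a₀ b))) (I J : FI n) :
    Tendsto (fun k => eW (a k) I J) l (𝓝 (eW a₀ I J)) := by
  have h1 : ∀ a : Fin n → ℂ, eW a I J = ∑ b, a b * eW (ep b) I J := fun a => by
    rw [eW_eq_sum a, Matrix.sum_apply]
    rfl
  rw [h1 a₀]
  exact (tendsto_finsetSum _ fun b _ => (h b).mul_const _).congr fun k => (h1 _).symm

theorem cont_Gam (I J : FI n) : Continuous fun B : Matrix (Fin n) (Fin n) ℂ => Gam B I J := by
  unfold Gam
  split_ifs with h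
  · exact (continuous_id.matrix_submatrix _ _).matrix_det
  · exact continuous_const

/-- field `hor` of `Rel.Min` -/
theorem hor (hal : HolV (D.atl G) univ al) (h : Lim D al f S) :
    ∀ i v, ∀ x ∈ (A.e i).source, ∀ k, mv (eW (dV A i (aV D al i v) x k)) (S i v x) = 0 := by
  intro i v x hx k
  funext I
  refine tendsto_nhds_unique_of_frequently_eq (l := 𝓝 x) (mv_tendsto
    (B := fun y => eW (dV A i (aV D al i v) y k)) (u := fun y => S i v y)
    (eW_cont (dV_cont (hal_sm hal) v hx k)) (S_cont h v hx) I) tendsto_const_nhds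
    ((freq (hal_sm hal) (hal_sm hal) h h v v ⟨hx, hx⟩).mono ?_)
  rintro y ⟨φ, h1, -⟩
  refine tendsto_nhds_unique (mv_tendsto (B := fun _ => eW (dV A i (aV D al i v) y k))
    (fun _ _ => tendsto_const_nhds) h1 I) (tendsto_const_nhds.congr fun k => ?_)
  rw [tw_wv, wv_hor]

/-- field `closed` of `Rel.Min` -/
theorem closed (hal : HolV (D.atl G) univ al) (h : Lim D al f S) :
    ∀ i v, ∀ x ∈ (A.e i).source,
      ∑ b, mv (eW (ep b)) (fun I => dl A i b (fun y => S i v y I) x) = 0 := by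
  intro i v x hx
  refine closed_flat (A.e i).open_target (a := rdv D al i v) (F := fun k => rdv D (f k) i v)
    (S := fun z => S i v ((A.e i).symm z)) (sm_rdv (hal_sm hal) i v)
    (fun k => sm_rdv (h.f_sm k) i v) (h.S_hol i v) (fun K hK hc I => ?_) ((A.e i).map_source hx)
  refine (h.lim i v K hK hc I).congr fun k => setLIntegral_congr_fun hc.measurableSet
    fun z hz => ?_
  rw [tw_eq' al (f k) v (hK hz)]

theorem dl_congr_src {W : Type*} [NormedAddCommGroup W] [NormedSpace ℂ W] {i : A.ι}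
    {g g' : X → W} {x : X} (hx : x ∈ (A.e i).source) (h : g =ᶠ[𝓝 x] g') (b : Fin n) :
    dl A i b g x = dl A i b g' x :=
  dj_congr (((A.e i).tendsto_symm hx).eventually h)

theorem dl_tr {W : Type*} [NormedAddCommGroup W] [NormedSpace ℂ W] {g : D.cov G → W}
    (hg : (D.atl G).Sm g) {i j : A.ι} (v : G) {x : X}
    (hx : x ∈ (A.e i).source ∩ (A.e j).source) (b : Fin n) :
    dl A i b (aV D g i v) x = ∑ c, A.J i j x c b • dl A j c (aV D g j (D.c i j x * v)) x := by
  rw [← dl_chain (f := aV D g j (D.c i j x * v)) (((sm_rdv hg j _).contDiffAt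
    ((A.e j).open_target.mem_nhds ((A.e j).map_source hx.2))).differentiableAt (by simp)) hx]
  refine dl_congr_src hx.1 ?_ b
  filter_upwards [((A.e i).open_source.inter (A.e j).open_source).mem_nhds hx] with y hy
  simp only [aV]
  rw [D.pt_eq v hy.1 hy.2, D.c_loc i j y hy x hx, smul_eq_mul]

theorem tw_tr {g : D.cov G → H} (hal : (D.atl G).Sm al) (hg : (D.atl G).Sm g) {i j : A.ι} (v : G)
    {x : X} (hx : x ∈ (A.e i).source ∩ (A.e j).source) :
    tw D al g i v x = mv (Gam (Jm A i j x)ᵀ) (tw D al g j (D.c i j x * v) x) := by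
  rw [tw_wv, tw_wv, wv_tr, Gam_wdg]
  congr 1
  · congr 1
    funext k b
    have h1 := dl_tr (g := fun e => al e k) (fun p => comp_smooth (hal p) k) v hx b
    exact h1
  · funext b
    exact dl_tr hg v hx b

/-- field `S_tr` of `Rel.Min` -/
theorem trS (hal : HolV (D.atl G) univ al) (h : Lim D al f S) :
    ∀ i j v, ∀ x ∈ (A.e i).source ∩ (A.e j).source,
      S i v x = mv (Gam (Jm A i j x)ᵀ) (S j (D.c i j x * v) x) := by
  intro i j v x hx
  funext I
  have hJ : ∀ I J, ContinuousAt (fun y => Gam (Jm A i j y)ᵀ I J) x := fun I J =>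
    ContinuousAt.comp (f := fun y => (Jm A i j y)ᵀ) (cont_Gam I J).continuousAt
      (continuousAt_pi.2 fun a => continuousAt_pi.2 fun b =>
        cont_of_chart (isOpen_ov i j) (J_smooth i j b a).continuousOn hx.1 (mem_ov hx))
  refine tendsto_nhds_unique_of_frequently_eq (l := 𝓝 x) (S_cont h v hx.1 I) (mv_tendsto
    (B := fun y => Gam (Jm A i j y)ᵀ) (u := fun y => S j (D.c i j x * v) y) hJ
    (S_cont h _ hx.2) I) (((freq (hal_sm hal) (hal_sm hal) h h v (D.c i j x * v) hx).and_eventually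
      (((A.e i).open_source.inter (A.e j).open_source).mem_nhds hx)).mono ?_)
  rintro y ⟨⟨φ, h1, h2⟩, hy⟩
  refine tendsto_nhds_unique (h1 I) ((mv_tendsto (B := fun _ => Gam (Jm A i j y)ᵀ)
    (fun _ _ => tendsto_const_nhds) h2 I).congr fun k => ?_)
  rw [tw_tr (hal_sm hal) (h.f_sm _) v hy, D.c_loc i j y hy x hx]

/-- naturality of the limit -/
theorem map (hal : HolV (D.atl G) univ al) (hal' : HolV (D.atl G) univ al') (h : Lim D al f S)
    (h' : Lim D al' f' S') (L : H →L[ℂ] H') (c : ℂ) {i : A.ι} {v w : G}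
    (hτ : ∀ x ∈ (A.e i).source, dW A i (aV D al' i w) x = c • dW A i (aV D al i v) x)
    (hf : ∀ k, ∃ b, ∀ x ∈ (A.e i).source, f' k (D.pt i w x) = L (f k (D.pt i v x)) + b) :
    ∀ x ∈ (A.e i).source, ∀ I, S' i w x I = c • L (S i v x I) := by
  intro x hx I
  refine tendsto_nhds_unique_of_frequently_eq (l := 𝓝 x) (S_cont h' w hx I)
    ((L.continuous.continuousAt.comp (S_cont h v hx I)).const_smul c)
    (((freq (hal_sm hal) (hal_sm hal') h h' v w ⟨hx, hx⟩).and_eventually
      ((A.e i).open_source.mem_nhds hx)).mono ?_)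
  rintro y ⟨⟨φ, h1, h2⟩, hy⟩
  refine tendsto_nhds_unique (h2 I) ((((L.continuous.tendsto _).comp (h1 I)).const_smul c).congr
    fun k => ?_)
  obtain ⟨b, hb⟩ := hf (φ k)
  have h3 : ∀ a, dl A i a (aV D (f' (φ k)) i w) y = L (dl A i a (aV D (f (φ k)) i v) y) := by
    intro a
    rw [dl_congr_src (g := aV D (f' (φ k)) i w) (g' := fun x => L (f (φ k) (D.pt i v x)) + b) hy
      (mem_of_superset ((A.e i).open_source.mem_nhds hy) hb)]
    unfold dl
    rw [dj_add_const, dj_clm L (((sm_rdv (h.f_sm (φ k)) i v).contDiffAt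
      ((A.e i).open_target.mem_nhds ((A.e i).map_source hy))).differentiableAt (by simp))]
    rfl
  simp only [Function.comp, Rel.tw, hτ y hy, h3, map_sum, map_smul, Matrix.mulVec_smul,
    Pi.smul_apply, Finset.smul_sum, smul_smul, smul_eq_mul]

/-- field `S_eqv` of `Rel.Min` -/
theorem eqv (hal : HolV (D.atl G) univ al) (h : Lim D al f S) {M : Subgroup G} (a : Act M H)
    (hM : ∀ m ∈ M, ∀ e, al (m • e) = al e)
    (hf : ∀ k (m : M) e, f k ((m : G) • e) = a.α m (f k e)) :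
    ∀ (m : M) i v, ∀ x ∈ (A.e i).source, ∀ I, S i (v * (m : G)⁻¹) x I = a.π m (S i v x I) := by
  intro m i v x hx I
  have h1 := map hal hal h h (a.π m).toContinuousLinearEquiv.toContinuousLinearMap 1
    (i := i) (v := v) (w := v * (m : G)⁻¹) (fun y _ => ?_) (fun k => ⟨a.b m, fun y _ => ?_⟩) x hx I
  · rw [h1, one_smul]
    rfl
  · rw [one_smul]
    congr 1
    funext y
    simp only [aV]
    rw [← D.deck_pt, hM m m.2]
  · rw [← D.deck_pt, hf]
    rfl

/-- the limit is unique -/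
theorem uniq0 (hal : HolV (D.atl G) univ al) {S₁ : A.ι → G → X → FI n → H} (h : Lim D al f S)
    (h₁ : Lim D al f S₁) : ∀ i v, ∀ x ∈ (A.e i).source, S i v x = S₁ i v x := by
  intro i v x hx
  funext I
  have h1 := map hal hal h₁ h (ContinuousLinearMap.id ℂ H) 1 (i := i) (v := v) (w := v)
    (fun y _ => (one_smul _ _).symm) (fun k => ⟨0, fun y _ => by simp⟩) x hx I
  simpa using h1

theorem sq_add_le (x y : H) : ‖x + y‖ₑ ^ 2 ≤ 4 * ‖x‖ₑ ^ 2 + 4 * ‖y‖ₑ ^ 2 := by
  have h1 : ‖x + y‖ₑ ≤ 2 * max ‖x‖ₑ ‖y‖ₑ := by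
    rw [two_mul]
    exact (enorm_add_le x y).trans (add_le_add (le_max_left _ _) (le_max_right _ _))
  refine (pow_le_pow_left₀ zero_le h1 2).trans ?_
  rw [mul_pow, show (2 : ℝ≥0∞) ^ 2 = 4 by norm_num]
  rcases le_total ‖x‖ₑ ‖y‖ₑ with h | h
  · rw [max_eq_right h]
    exact le_add_self
  · rw [max_eq_left h]
    exact le_self_add

/-- a sequence close to a convergent one has the same limit -/
theorem lim_of_close (hal : HolV (D.atl G) univ al) {f₁ : ℕ → D.cov G → H} (h : Lim D al f S)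
    (h₁ : ∀ k, (D.atl G).Sm (f₁ k))
    (hc : ∀ i v, ∀ K ⊆ (A.e i).target, IsCompact K → ∀ I, Tendsto (fun k => ∫⁻ z in K,
      ‖tw D al (f₁ k) i v ((A.e i).symm z) I - tw D al (f k) i v ((A.e i).symm z) I‖ₑ ^ 2) atTop
      (𝓝 0)) : Lim D al f₁ S := by
  refine ⟨h₁, h.S_hol, fun i v K hK hK' I => ?_⟩
  have t1 := (ENNReal.Tendsto.const_mul (a := 4) (hc i v K hK hK' I) (Or.inr (by simp))).add
    (ENNReal.Tendsto.const_mul (a := 4) (h.lim i v K hK hK' I) (Or.inr (by simp)))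
  rw [mul_zero, add_zero] at t1
  refine tendsto_of_tendsto_of_tendsto_of_le_of_le tendsto_const_nhds t1 (fun _ => zero_le)
    fun k => ?_
  have hm : AEMeasurable (fun z => 4 * ‖tw D al (f k) i v ((A.e i).symm z) I -
      S i v ((A.e i).symm z) I‖ₑ ^ 2) (volume.restrict K) :=
    (((((tw_smooth (hal_sm hal) (h.f_sm k) i v I).continuousOn.sub
      (h.S_hol i v I).continuousOn).mono hK).aestronglyMeasurable hK'.measurableSet).enorm.pow_const
      2).const_mul 4
  rw [← lintegral_const_mul' _ _ (by simp), ← lintegral_const_mul' _ _ (by simp),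
    ← lintegral_add_right' _ hm]
  refine lintegral_mono fun z => ?_
  rw [← sub_add_sub_cancel _ (tw D al (f k) i v ((A.e i).symm z) I)]
  exact sq_add_le _ _

/-- close sequences have the same limit -/
theorem uniq (hal : HolV (D.atl G) univ al) {f₁ : ℕ → D.cov G → H} {S₁ : A.ι → G → X → FI n → H}
    (h : Lim D al f S) (h₁ : Lim D al f₁ S₁)
    (hc : ∀ i v, ∀ K ⊆ (A.e i).target, IsCompact K → ∀ I, Tendsto (fun k => ∫⁻ z in K,
      ‖tw D al (f₁ k) i v ((A.e i).symm z) I - tw D al (f k) i v ((A.e i).symm z) I‖ₑ ^ 2) atTop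
      (𝓝 0)) : ∀ i v, ∀ x ∈ (A.e i).source, S i v x = S₁ i v x :=
  uniq0 hal (lim_of_close hal h h₁.f_sm hc) h₁

/-- translation of a limit by a deck transformation under which `τ` is multiplied by `c` -/
theorem lim_transl (h : Lim D al f S) (g : G) (c : ℂ)
    (hτ : ∀ i v, ∀ x ∈ (A.e i).source,
      dW A i (aV D al i v) x = c • dW A i (aV D al i (v * g⁻¹)) x) :
    Lim D al (fun k e => f k (g • e)) fun i v x I => c • S i (v * g⁻¹) x I := by
  have e1 : ∀ k i v, aV D (fun e => f k (g • e)) i v = aV D (f k) i (v * g⁻¹) := fun k i v =>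
    funext fun x => by simp only [aV, D.deck_pt]
  refine ⟨fun k p => ?_, fun i v I => (h.S_hol i _ I).const_smul c, fun i v K hK hc I => ?_⟩
  · have := h.f_sm k (p.1, p.2 * g⁻¹)
    refine this.congr fun z _ => ?_
    exact congrFun (e1 k p.1 p.2) _
  · refine (tend_clm (c • ContinuousLinearMap.id ℂ H) (h.lim i (v * g⁻¹) K hK hc I)).congr
      fun k => setLIntegral_congr_fun hc.measurableSet fun z hz => ?_
    have e2 : tw D al (fun e => f k (g • e)) i v ((A.e i).symm z) I =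
        c • tw D al (f k) i (v * g⁻¹) ((A.e i).symm z) I := by
      simp only [Rel.tw, e1, hτ i v _ ((A.e i).map_target (hK hz)), Matrix.mulVec_smul,
        Pi.smul_apply, Finset.smul_sum, smul_smul, smul_eq_mul]
    rw [e2, ← smul_sub]
    rfl

/-- image of a limit under an affine map of the target -/
theorem lim_map (h : Lim D al f S) (L : H →L[ℂ] H') (b : ℕ → H') :
    Lim D al (fun k e => L (f k e) + b k) fun i v x I => L (S i v x I) := by
  refine ⟨fun k p => ?_, fun i v I => L.differentiable.comp_differentiableOn (h.S_hol i v I),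
    fun i v K hK hc I => ?_⟩
  · exact ((L.restrictScalars ℝ).contDiff.comp_contDiffOn (h.f_sm k p)).add contDiffOn_const
  · refine (tend_clm L (h.lim i v K hK hc I)).congr
      fun k => setLIntegral_congr_fun hc.measurableSet fun z hz => ?_
    have hd : DifferentiableAt ℝ (rdv D (f k) i v) z := ((sm_rdv (h.f_sm k) i v).contDiffAt
      ((A.e i).open_target.mem_nhds (hK hz))).differentiableAt (by simp)
    rw [map_sub, tw_eq' al _ v (hK hz), tw_eq' al _ v (hK hz), fw_clm L _ hd]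
    simp only [fw, rdv, dj_add_const]

end

end Crest.Agent.X261.Fam20
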