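import Crest.Agent.X261.Fam77.UqA
import Crest.Agent.X261.Fam79.Min

/-!
# X261, package FAM (helper20), file `D`: the weighted energy forms on the quotient covering

* `TT`, `VV`, `AA` : maps with equivariant differential, equivariant maps;
* `QT D M Q` : positive tensor densities, `qt_Q0`, `qt_Qe`;
* `dQ`, `den_ip`, `BQ`, `qf` : the form `∫ w(a) Q(∂f, ∂g)`;
* `loc0`, `B0L`, `le_e`, `tend_e` : the hypotheses of the abstract minimisation.
-/

set_option autoImplicit false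
set_option linter.unusedSectionVars false

open Set Filter Topology MeasureTheory Matrix
open scoped ComplexConjugate ComplexOrder InnerProductSpace ContDiff

namespace Crest.Agent.X261.Fam20

open Crest.Agent.R275.Geo Crest.Agent.R275.Core144 Crest.Agent.R273.UCov_914
open Crest.Agent.R273.Kah_333 Crest.Agent.R275.EDR890
open Crest.Agent.R273.Fock_243
open Crest.Agent.X261.Fam
open Crest.Agent.X261.Fam77 (hol_rd sm_rd dif_rd wd_tr Cf_tr rd_inv det_Jm_ne cont_Cf cont_vI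
  cont_gr cont_inv cont_det cont_Gam Sl_hor p2_smul_left Cf_eq)
open Crest.Agent.X261.Fam79 (BF PF Af QF Loc Cc Cu)
open Crest.Agent.X261.Rel.Act (Rep)

noncomputable section

variable {n q : ℕ} {H : Type*} [NormedAddCommGroup H] [InnerProductSpace ℂ H]

theorem th_add {F F' : Cn n → H} {z : Cn n} (h : DifferentiableAt ℝ F z)
    (h' : DifferentiableAt ℝ F' z) : th (fun w => F w + F' w) z = th F z + th F' z :=
  funext fun _ => wd_add h h' _

theorem th_smul {F : Cn n → H} {z : Cn n} (c : ℝ) (h : DifferentiableAt ℝ F z) :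
    th (fun w => c • F w) z = (c : ℂ) • th F z := by
  funext b
  simp only [← Complex.coe_smul]
  exact wd_const_smul _ h _

theorem th_sub {F F' : Cn n → H} {z : Cn n} (h : DifferentiableAt ℝ F z)
    (h' : DifferentiableAt ℝ F' z) : th (fun w => F w - F' w) z = th F z - th F' z := by
  have h1 := th_add h (h'.const_smul (-1 : ℝ))
  rw [show (fun w => F w - F' w) = fun w => F w + ((-1 : ℝ) • F') w from
    funext fun w => by simp [sub_eq_add_neg], h1]
  have h2 : th ((-1 : ℝ) • F') z = _ := th_smul (-1) h'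
  rw [h2]
  simp [sub_eq_add_neg]

theorem ee_mono {G : Mt n} (hG : G.PosDef) (C : Mr n q) {ε ε' : ℝ} (hε : 0 < ε) (h1 : ε ≤ ε')
    (θ : Fin n → H) : ee G C ε θ ≤ ee G C ε' θ := by
  obtain ⟨N, μ, h⟩ := exists_NF hG C
  rw [h.ee_eq hG hε, h.ee_eq hG (hε.trans_le h1)]
  refine mul_le_mul (mul_le_mul_of_nonneg_left (Dm_mono hG C hε.le h1) (det_re_pos hG).le)
    (Finset.sum_le_sum fun k _ => mul_le_mul_of_nonneg_right ?_ (sq_nonneg _))
    (Finset.sum_nonneg fun k _ => mul_nonneg (h.wt_pos hε k).le (sq_nonneg _))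
    (mul_pos (det_re_pos hG) (Dm_pos hG C (hε.trans_le h1))).le
  have := h.nn k
  unfold wt
  rw [div_le_div_iff₀ (by linarith) (by linarith)]
  nlinarith

theorem ip_Q0 (G : Mt n) (C : Mr n q) (θ θ' : Fin n → H) :
    ip (Q0 G C) θ θ' = p2 G (ac (vI C) θ) (ac (vI C) θ') := by
  rw [Q0, ip_smul, ip_conj, p2]

theorem Cf_mL (L : Mt q) {a : Cn n → Cn q} {z : Cn n} (ha : DifferentiableAt ℂ a z) :
    Cf (fun w => Fam.mL L (a w)) z = Cf a z * Lᵀ := by
  ext b h
  have h1 : fderiv ℂ (fun w => Fam.mL L (a w)) z = (Fam.mL L).comp (fderiv ℂ a z) :=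
    ((Fam.mL L).hasFDerivAt.comp z ha.hasFDerivAt).fderiv
  rw [Cf_eq (a := fun w => Fam.mL L (a w)) ((Fam.mL L).differentiableAt.comp z ha),
    Matrix.mul_apply, h1, ContinuousLinearMap.comp_apply, Fam.mL_apply]
  exact Finset.sum_congr rfl fun k _ => by rw [Cf_eq ha, Matrix.transpose_apply, mul_comm]

variable {X : Type} [TopologicalSpace X] {A : Atl n X} {G : Type} [Group G]

/-- smooth maps with equivariant differential -/
def TT (D : MonD A G) (M : Subgroup G) (r : Rep M H) : Submodule ℝ (D.cov G → H) where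
  carrier := {f | (D.atl G).Sm f ∧ ∀ m : M, ∃ c, ∀ e, f ((m : G) • e) = r.π m (f e) + c}
  add_mem' := by
    rintro f g ⟨h1, h2⟩ ⟨h3, h4⟩
    refine ⟨fun p => (h1 p).add (h3 p), fun m => ?_⟩
    obtain ⟨c, hc⟩ := h2 m
    obtain ⟨c', hc'⟩ := h4 m
    exact ⟨c + c', fun e => by simp only [Pi.add_apply, hc, hc', map_add]; abel⟩
  zero_mem' := ⟨fun _ => contDiffOn_const, fun _ => ⟨0, fun _ => by simp⟩⟩
  smul_mem' := by
    rintro t f ⟨h1, h2⟩
    refine ⟨fun p => (h1 p).const_smul t, fun m => ?_⟩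
    obtain ⟨c, hc⟩ := h2 m
    exact ⟨t • c, fun e => by
      simp only [Pi.smul_apply, hc, smul_add, ← Complex.coe_smul, map_smul]⟩

/-- real equivariant maps -/
def VV (D : MonD A G) (M : Subgroup G) (r : Rep M H) : Submodule ℝ (D.cov G → H) where
  carrier := {f | Eqv D M r 0 f}
  add_mem' := fun {f g} h h' => ⟨fun p => (h.sm p).add (h'.sm p),
    fun e => by simp only [Pi.add_apply, map_add, h.real, h'.real],
    fun m e => by simp only [Pi.add_apply, h.eqv, h'.eqv, map_add, Pi.zero_apply, add_zero]⟩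
  zero_mem' := ⟨fun _ => contDiffOn_const, fun _ => by simp, fun _ _ => by simp⟩
  smul_mem' := fun t f h => ⟨fun p => (h.sm p).const_smul t,
    fun e => by rw [Pi.smul_apply, ← Complex.coe_smul, r.J_real_smul, h.real],
    fun m e => by
      simp only [Pi.smul_apply, h.eqv, Pi.zero_apply, add_zero, ← Complex.coe_smul, map_smul]⟩

/-- real maps equivariant for the affine action -/
def AA (D : MonD A G) (M : Subgroup G) (r : Rep M H) (b : M → H) : Set (D.cov G → H) :=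
  {f | Eqv D M r b f}

variable {D : MonD A G} {M : Subgroup G} {a : D.cov G → Cn q} {r : Rep M H} {b : M → H}
  {f g : D.cov G → H}

theorem mem_TT (h : Eqv D M r b f) : f ∈ TT D M r := ⟨h.sm, fun m => ⟨b m, h.eqv m⟩⟩

theorem af (h0 : ∃ f, Eqv D M r b f) : Af (TT D M r) (VV D M r) (AA D M r b) where
  le _ h := mem_TT (b := 0) h
  sub _ h := mem_TT h
  ne := h0
  diff f h g h' := ⟨fun p => (h.sm p).sub (h'.sm p),
    fun e => by simp only [Pi.sub_apply, map_sub, h.real, h'.real],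
    fun m e => by
      simp only [Pi.sub_apply, h.eqv, h'.eqv, map_sub, Pi.zero_apply, add_zero]; abel⟩
  add f h u h' := ⟨fun p => (h.sm p).add (Eqv.sm h' p),
    fun e => by simp only [Pi.add_apply, map_add, h.real, Eqv.real h'],
    fun m e => by
      simp only [Pi.add_apply, h.eqv, Eqv.eqv h', map_add, Pi.zero_apply, add_zero]; abel⟩

theorem th_tr (hf : (D.atl G).Sm f) {i j : A.ι} (v : G) {x : X}
    (hx : x ∈ (A.e i).source ∩ (A.e j).source) : th (Fam.rd D f i v) (A.e i x) =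
      ac (Jm A i j x)ᵀ (th (Fam.rd D f j (D.c i j x * v)) (A.e j x)) :=
  funext fun b => wd_tr hx (dif_rd hf j _ ((A.e j).map_source hx.2)) b

theorem th_eqv (hf : f ∈ TT D M r) (m : M) (i : A.ι) (v : G) {z : Cn n}
    (hz : z ∈ (A.e i).target) : th (Fam.rd D f i (v * (m : G)⁻¹)) z =
      fun b => (r.π m).toLinearIsometry (th (Fam.rd D f i v) z b) := by
  obtain ⟨c, hc⟩ := hf.2 m
  have h1 : Fam.rd D f i (v * (m : G)⁻¹) = fun w =>
      (r.π m).toContinuousLinearEquiv.toContinuousLinearMap (Fam.rd D f i v w) + c := by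
    funext w
    rw [Fam77.rd_deck, hc]
    rfl
  have h2 := dif_rd hf.1 i v hz
  funext b
  have h4 : DifferentiableAt ℝ (fun w =>
      (r.π m).toContinuousLinearEquiv.toContinuousLinearMap (Fam.rd D f i v w)) z :=
    ((r.π m).toContinuousLinearEquiv.toContinuousLinearMap.restrictScalars
      ℝ).differentiableAt.comp z h2
  rw [th, h1, wd_add h4 (differentiableAt_const c), wd_const, add_zero, wd_clm h2]
  rfl

theorem cont_th (hf : (D.atl G).Sm f) (i : A.ι) (v : G) (c : Fin n) :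
    ContinuousOn (fun z => th (Fam.rd D f i v) z c) (A.e i).target :=
  (contDiffOn_wd (A.e i).open_target (sm_rd hf i v) (false, c)).continuousOn

/-- positive invariant tensor densities -/
structure QT (D : MonD A G) (M : Subgroup G) (Q : A.ι → G → Cn n → Mt n) : Prop where
  law : ∀ i j v, ∀ x ∈ (A.e i).source ∩ (A.e j).source,
    ((Jm A i j x)ᵀ)ᴴ * Q i v (A.e i x) * (Jm A i j x)ᵀ =
      ((‖(Jm A i j x).det‖ ^ 2 : ℝ) : ℂ) • Q j (D.c i j x * v) (A.e j x)
  inv : ∀ m ∈ M, ∀ i v, ∀ z ∈ (A.e i).target, Q i (v * m⁻¹) z = Q i v z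
  cont : ∀ i v, ContinuousOn (Q i v) (A.e i).target
  psd : ∀ i v, ∀ z ∈ (A.e i).target, (Q i v z).PosSemidef

/-- the tensor of the vertical energy -/
def Q0f (D : MonD A G) (K : Kah A) (a : D.cov G → Cn q) (i : A.ι) (v : G) (z : Cn n) : Mt n :=
  Q0 (K.g i ((A.e i).symm z)) (Cf (Fam.rd D a i v) z)

/-- the tensor of the approximate energy -/
def Qef (D : MonD A G) (K : Kah A) (a : D.cov G → Cn q) (ε : ℝ) (i : A.ι) (v : G) (z : Cn n) :
    Mt n := Qe (K.g i ((A.e i).symm z)) (Cf (Fam.rd D a i v) z) ε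

/-- the map `L ∘ a` -/
abbrev aM (L : Mt q) (a : D.cov G → Cn q) : D.cov G → Cn q := fun e => Fam.mL L (a e)

theorem Cf_aM (hd : Dat D M a) (L : Mt q) (i : A.ι) (v : G) {z : Cn n} (hz : z ∈ (A.e i).target) :
    Cf (Fam.rd D (aM L a) i v) z = Cf (Fam.rd D a i v) z * Lᵀ :=
  Cf_mL L ((hol_rd hd i v).differentiableAt ((A.e i).open_target.mem_nhds hz))

theorem qt_Q0 (K : Kah A) (hd : Dat D M a) : QT D M (Q0f D K a) := by
  refine ⟨fun i j v x hx => ?_, fun m hm i v z _ => ?_, fun i v => ?_, fun i v z hz => ?_⟩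
  · have h1 : K.g i x = (Jm A i j x)ᵀ * K.g j x * ((Jm A i j x)ᵀ)ᴴ := K.tr i j x hx
    rw [Q0f, Q0f, (A.e i).left_inv hx.1, (A.e j).left_inv hx.2, h1, Cf_tr hd v hx,
      Q0_conj (det_Jm_ne K hx), Matrix.det_transpose]
  · rw [Q0f, Q0f, rd_inv hd hm]
  · have h1 : ContinuousOn (fun z => vI (Cf (Fam.rd D a i v) z)) (A.e i).target :=
      continuousOn_pi.2 fun I => continuousOn_pi.2 fun c =>
        (cont_vI I c).comp_continuousOn (cont_Cf (A.e i).open_target (hol_rd hd i v))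
    have h2 : ContinuousOn (fun z => Gam (K.g i ((A.e i).symm z))⁻¹) (A.e i).target :=
      continuousOn_pi.2 fun I => continuousOn_pi.2 fun J =>
        (cont_Gam I J).comp_continuousOn (cont_inv K i)
    have h3 : Continuous fun p : ℂ × Matrix (FI n) (Fin n) ℂ × Matrix (FI n) (FI n) ℂ =>
        p.1 • (p.2.1ᴴ * p.2.2 * p.2.1) :=
      continuous_fst.smul ((continuous_snd.fst.matrix_conjTranspose.matrix_mul
        continuous_snd.snd).matrix_mul continuous_snd.fst)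
    have h4 := h3.comp_continuousOn ((cont_det K i).prodMk (h1.prodMk h2))
    exact h4.congr fun z _ => rfl
  · exact Q0_psd (K.pos i _ ((A.e i).map_target hz)) _

theorem qt_Qe (K : Kah A) (hd : Dat D M a) (L : Mt q) {ε : ℝ} (hε : 0 < ε) :
    QT D M (Qef D K (aM L a) ε) := by
  refine ⟨fun i j v x hx => ?_, fun m hm i v z hz => ?_, fun i v => ?_, fun i v z hz => ?_⟩
  · have h1 : K.g i x = (Jm A i j x)ᵀ * K.g j x * ((Jm A i j x)ᵀ)ᴴ := K.tr i j x hx
    rw [Qef, Qef, Cf_aM hd L i v ((A.e i).map_source hx.1),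
      Cf_aM hd L j _ ((A.e j).map_source hx.2), (A.e i).left_inv hx.1, (A.e j).left_inv hx.2, h1,
      Cf_tr hd v hx, Matrix.mul_assoc (Jm A i j x)ᵀ _ Lᵀ, Qe_conj, Matrix.det_transpose]
  · rw [Qef, Qef, Cf_aM hd L i _ hz, Cf_aM hd L i _ hz, rd_inv hd hm]
  · have h3 : Continuous fun p : Mt n × Mr n q => Qe p.1 (p.2 * Lᵀ) ε := by
      have h4 : Continuous fun p : Mt n × Mr n q => p.2 * Lᵀ :=
        continuous_snd.matrix_mul continuous_const
      exact (continuous_fst.add ((h4.matrix_mul h4.matrix_conjTranspose).const_smul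
        ((ε⁻¹ : ℝ) : ℂ))).matrix_adjugate.const_smul ((ε ^ q : ℝ) : ℂ)
    refine (h3.comp_continuousOn ((cont_gr K i).prodMk
      (cont_Cf (A.e i).open_target (hol_rd hd i v)))).congr fun z hz => ?_
    rw [Qef, Cf_aM hd L i v hz]
    rfl
  · exact (Qe_posDef (K.pos i _ ((A.e i).map_target hz)) _ hε).posSemidef

theorem aM_one (a : D.cov G → Cn q) : aM 1 a = a := by
  funext e
  ext k
  simp [aM, Fam.mL_apply, Matrix.one_apply]

theorem qt_Qe' (K : Kah A) (hd : Dat D M a) {ε : ℝ} (hε : 0 < ε) : QT D M (Qef D K a ε) := by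
  have := qt_Qe K hd 1 hε
  rwa [aM_one] at this

/-- the density `w(a) Q(∂f, ∂g)` -/
def dQ (D : MonD A G) (a : D.cov G → Cn q) (Q : A.ι → G → Cn n → Mt n) (w : Cn q → ℝ)
    (f g : D.cov G → H) (i : A.ι) (v : G) (z : Cn n) : ℂ :=
  ((w (Fam.rd D a i v z) : ℝ) : ℂ) * ip (Q i v z) (th (Fam.rd D f i v) z) (th (Fam.rd D g i v) z)

variable {Q : A.ι → G → Cn n → Mt n} {w : Cn q → ℝ}

theorem den_ip (hd : Dat D M a) (hQ : QT D M Q) (hw : Continuous w) {R : ℝ}
    (hs : ∀ y, R < ‖y‖ → w y = 0) (hf : f ∈ TT D M r) (hg : g ∈ TT D M r) :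
    Den D M a R (dQ D a Q w f g) := by
  refine ⟨fun i j v x hx => ?_, fun m hm i v z hz => ?_, fun i v => ?_, fun i v z _ h1 => ?_⟩
  · rw [dQ, dQ, rd_pt D a v hx.1, rd_pt D a _ hx.2, th_tr hf.1 v hx, th_tr hg.1 v hx, ← ip_conj,
      hQ.law i j v x hx, ip_smul, D.pt_eq v hx.1 hx.2, mul_left_comm]
    rfl
  · rw [dQ, dQ, rd_inv hd hm, th_eqv hf ⟨m, hm⟩ i v hz, th_eqv hg ⟨m, hm⟩ i v hz, ip_iso,
      hQ.inv m hm i v z hz]
  · refine (Complex.continuous_ofReal.comp_continuousOn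
      (hw.comp_continuousOn (hol_rd hd i v).continuousOn)).mul ?_
    simp only [ip_eq]
    exact continuousOn_finsetSum _ fun c _ => continuousOn_finsetSum _ fun d _ =>
      (continuousOn_pi.1 (continuousOn_pi.1 (hQ.cont i v) c) d).mul
        ((cont_th hf.1 i v c).inner (cont_th hg.1 i v d))
  · rw [dQ, hs _ h1, Complex.ofReal_zero, zero_mul]

theorem exists_rad (hw : HasCompactSupport w) : ∃ R : ℝ, ∀ y, R < ‖y‖ → w y = 0 := by
  obtain ⟨R, hR⟩ := hw.isCompact.isBounded.subset_closedBall 0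
  refine ⟨R, fun y hy => image_eq_zero_of_notMem_tsupport fun h => ?_⟩
  have := hR h
  rw [mem_closedBall_zero_iff] at this
  linarith

theorem exists_rad2 {w' : Cn q → ℝ} (hw : HasCompactSupport w) (hw' : HasCompactSupport w') :
    ∃ R : ℝ, (∀ y, R < ‖y‖ → w y = 0) ∧ ∀ y, R < ‖y‖ → w' y = 0 := by
  obtain ⟨R, hR⟩ := exists_rad hw
  obtain ⟨R', hR'⟩ := exists_rad hw'
  exact ⟨max R R', fun y hy => hR y ((le_max_left _ _).trans_lt hy),
    fun y hy => hR' y ((le_max_right _ _).trans_lt hy)⟩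

theorem re_dQ (i : A.ι) (v : G) (z : Cn n) : (dQ D a Q w f g i v z).re = w (Fam.rd D a i v z) *
    (ip (Q i v z) (th (Fam.rd D f i v) z) (th (Fam.rd D g i v) z)).re := by
  rw [dQ, Complex.re_ofReal_mul]

theorem dQ_self (hQ : QT D M Q) {i : A.ι} (v : G) {z : Cn n} (hz : z ∈ (A.e i).target) :
    dQ D a Q w f f i v z =
      ((w (Fam.rd D a i v z) * en (Q i v z) (th (Fam.rd D f i v) z) : ℝ) : ℂ) := by
  rw [dQ, ip_real (hQ.psd i v z hz).1, Complex.ofReal_mul]

theorem th_rd_sub (hf : (D.atl G).Sm f) (hg : (D.atl G).Sm g) {i : A.ι} (v : G) {z : Cn n}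
    (hz : z ∈ (A.e i).target) :
    th (Fam.rd D (f - g) i v) z = th (Fam.rd D f i v) z - th (Fam.rd D g i v) z :=
  th_sub (dif_rd hf i v hz) (dif_rd hg i v hz)

variable [Finite A.ι] [Countable G] [T2Space X]

/-- the form `re ∫ w(a) Q(∂f, ∂g)` -/
def BQ (D : MonD A G) (K : Kah A) (M : Subgroup G) (a : D.cov G → Cn q)
    (Q : A.ι → G → Cn n → Mt n) (w : Cn q → ℝ) (f g : D.cov G → H) : ℝ :=
  (IM D K M (dQ D a Q w f g)).re

variable (K : Kah A)

theorem re_IM_congr (hd : Dat D M a) {R : ℝ} {Φ Ψ : A.ι → G → Cn n → ℂ} (h : Den D M a R Φ)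
    (h' : Den D M a R Ψ) (e : ∀ i v, ∀ z ∈ (A.e i).target, (Φ i v z).re = (Ψ i v z).re) :
    (IM D K M Φ).re = (IM D K M Ψ).re :=
  le_antisymm (re_IM_mono K hd h h' fun i v z hz => (e i v z hz).le)
    (re_IM_mono K hd h' h fun i v z hz => (e i v z hz).ge)

theorem BQ_self (hQ : QT D M Q) : BQ D K M a Q w f f = (IM D K M fun i v z =>
    ((w (Fam.rd D a i v z) * en (Q i v z) (th (Fam.rd D f i v) z) : ℝ) : ℂ)).re := by
  rw [BQ, IM_congr K fun i v z hz => dQ_self hQ v hz]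

theorem qf (hd : Dat D M a) (hQ : QT D M Q) : QF (TT D M r) (BQ D K M a Q) := by
  refine ⟨fun w hw => ?_, fun w w' hw hw' f hf g hg => ?_, fun w _ c f _ g _ => ?_,
    fun w hw h0 f hf => ?_⟩
  · obtain ⟨R, hR⟩ := exists_rad hw.2
    refine ⟨fun f hf g hg => ?_, fun f hf g hg h hh => ?_, fun c f hf h _ => ?_⟩
    · refine re_IM_congr K hd (den_ip hd hQ hw.1 hR hf hg) (den_ip hd hQ hw.1 hR hg hf)
        fun i v z hz => ?_
      rw [re_dQ, re_dQ, re_ip_comm (hQ.psd i v z hz).1]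
    · rw [BQ, BQ, BQ, ← Complex.add_re, ← IM_add K hd (den_ip hd hQ hw.1 hR hf hh)
        (den_ip hd hQ hw.1 hR hg hh)]
      congr 1
      refine IM_congr K fun i v z hz => ?_
      have h1 : th (Fam.rd D (f + g) i v) z = th (Fam.rd D f i v) z + th (Fam.rd D g i v) z :=
        th_add (dif_rd hf.1 i v hz) (dif_rd hg.1 i v hz)
      rw [dQ, dQ, dQ, h1, ip_add_left, mul_add]
    · rw [BQ, BQ, ← Complex.re_ofReal_mul, ← IM_smul]
      congr 1
      refine IM_congr K fun i v z hz => ?_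
      have h1 : th (Fam.rd D (c • f) i v) z = (c : ℂ) • th (Fam.rd D f i v) z :=
        th_smul c (dif_rd hf.1 i v hz)
      rw [dQ, dQ, h1, ip_smul_left, Complex.conj_ofReal, mul_left_comm]
  · obtain ⟨R, hR, hR'⟩ := exists_rad2 hw.2 hw'.2
    rw [BQ, BQ, BQ, ← Complex.add_re, ← IM_add K hd (den_ip hd hQ hw.1 hR hf hg)
      (den_ip hd hQ hw'.1 hR' hf hg)]
    congr 1
    refine IM_congr K fun i v z _ => ?_
    rw [dQ, dQ, dQ, Complex.ofReal_add, add_mul]
  · rw [BQ, BQ, ← Complex.re_ofReal_mul, ← IM_smul]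
    congr 1
    refine IM_congr K fun i v z _ => ?_
    rw [dQ, dQ, Complex.ofReal_mul, mul_assoc]
  · obtain ⟨R, hR⟩ := exists_rad hw.2
    refine re_IM_nonneg K hd (den_ip hd hQ hw.1 hR hf hf) fun i v z hz => ?_
    rw [re_dQ]
    exact mul_nonneg (h0 _) (en_nonneg (hQ.psd i v z hz) _)

theorem sm_a (hd : Dat D M a) (i : A.ι) (v : G) :
    ContDiffOn ℝ ∞ (Fam.rd D a i v) (A.e i).target :=
  ((R266.SCV.analyticOnNhd_of_differentiableOn (A.e i).open_target
    (hol_rd hd i v)).contDiffOn_of_completeSpace).restrict_scalars ℝ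

theorem eqv_mul (hd : Dat D M a) {χ : Cn q → ℝ} (hχ : ContDiff ℝ ∞ χ) {u : D.cov G → H}
    (hu : Eqv D M r 0 u) : Eqv D M r 0 fun e => ((χ (a e) : ℝ) : ℂ) • u e :=
  ⟨fun p => ((Complex.ofRealCLM.contDiff.comp hχ).comp_contDiffOn (sm_a hd p.1 p.2)).smul (hu.sm p),
    fun e => by rw [r.J_real_smul, hu.real],
    fun m e => by simp only [hd.inv m m.2, hu.eqv, Pi.zero_apply, add_zero, map_smul]⟩

/-- localisation for the vertical energy -/
theorem loc0 (hd : Dat D M a) : Loc (TT D M r) (VV D M r) (BQ D K M a (Q0f D K a)) := by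
  intro χ hχ u hu
  refine ⟨_, eqv_mul hd hχ.sm hu, fun w _ g _ => ?_⟩
  unfold BQ
  congr 1
  refine IM_congr K fun i v z hz => ?_
  have h1 := Sl_hor (χ := fun y => ((χ y : ℝ) : ℂ))
    ((hol_rd hd i v).differentiableAt ((A.e i).open_target.mem_nhds hz))
    (dif_rd (Eqv.sm hu) i v hz)
    (((Complex.ofRealCLM.contDiff.comp hχ.sm).differentiable (by simp)) _)
  rw [dQ, dQ, Q0f, ip_Q0, ip_Q0, Complex.ofReal_mul, mul_assoc,
    ← p2_smul_left _ (χ (Fam.rd D a i v z))]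
  congr 2

theorem Q0f_aM (hd : Dat D M a) (L : Mt q) {i : A.ι} (v : G) {z : Cn n}
    (hz : z ∈ (A.e i).target) :
    Q0f D K (aM L a) i v z = ((‖L.det‖ ^ 2 : ℝ) : ℂ) • Q0f D K a i v z := by
  rw [Q0f, Q0f, Cf_aM hd L i v hz, Q0_mul_right, Matrix.det_transpose]

theorem qt_Q0L (hd : Dat D M a) (L : Mt q) : QT D M (Q0f D K (aM L a)) := by
  have h := qt_Q0 K hd
  refine ⟨fun i j v x hx => ?_, fun m hm i v z hz => ?_, fun i v => ?_, fun i v z hz => ?_⟩
  · rw [Q0f_aM K hd L v ((A.e i).map_source hx.1), Q0f_aM K hd L _ ((A.e j).map_source hx.2),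
      Matrix.mul_smul, Matrix.smul_mul, h.law i j v x hx, smul_comm]
  · rw [Q0f_aM K hd L _ hz, Q0f_aM K hd L _ hz, h.inv m hm i v z hz]
  · exact ((h.cont i v).const_smul ((‖L.det‖ ^ 2 : ℝ) : ℂ)).congr fun z hz => Q0f_aM K hd L v hz
  · exact Q0_psd (K.pos i _ ((A.e i).map_target hz)) _

theorem B0L (hd : Dat D M a) (L : Mt q) :
    BQ D K M a (Q0f D K (aM L a)) w f g = ‖L.det‖ ^ 2 * BQ D K M a (Q0f D K a) w f g := by
  rw [BQ, BQ, ← Complex.re_ofReal_mul, ← IM_smul]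
  congr 1
  refine IM_congr K fun i v z hz => ?_
  rw [dQ, dQ, Q0f_aM K hd L v hz, ip_smul, mul_left_comm]

theorem le_e (hd : Dat D M a) (L : Mt q) {ε : ℝ} (hε : 0 < ε) (hw : Cc w) (h0 : ∀ y, 0 ≤ w y)
    (hf : f ∈ TT D M r) :
    ‖L.det‖ ^ 2 * BQ D K M a (Q0f D K a) w f f ≤ BQ D K M a (Qef D K (aM L a) ε) w f f := by
  obtain ⟨R, hR⟩ := exists_rad hw.2
  rw [← B0L K hd]
  refine re_IM_mono K hd (den_ip hd (qt_Q0L K hd L) hw.1 hR hf hf)
    (den_ip hd (qt_Qe K hd L hε) hw.1 hR hf hf) fun i v z hz => ?_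
  rw [re_dQ, re_dQ]
  exact mul_le_mul_of_nonneg_left (e0_le_ee (K.pos i _ ((A.e i).map_target hz)) _ hε _) (h0 _)

theorem tend_e (hd : Dat D M a) (L : Mt q) (hw : Cc w) (h0 : ∀ y, 0 ≤ w y) (hf : f ∈ TT D M r) :
    Tendsto (fun ε => BQ D K M a (Qef D K (aM L a) ε) w f f) (𝓝[>] 0)
      (𝓝 (‖L.det‖ ^ 2 * BQ D K M a (Q0f D K a) w f f)) := by
  obtain ⟨R, hR⟩ := exists_rad hw.2
  rw [← B0L K hd]
  have hI : ∀ᶠ ε : ℝ in 𝓝[>] 0, ε ∈ Ioc (0 : ℝ) 1 := Ioc_mem_nhdsGT one_pos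
  refine (Complex.continuous_re.tendsto _).comp (tendsto_IM K hd
    (hI.mono fun ε hε => den_ip hd (qt_Qe K hd L hε.1) hw.1 hR hf hf)
    (den_ip hd (qt_Qe K hd L one_pos) hw.1 hR hf hf) (hI.mono fun ε hε i v z hz => ?_)
    fun i v z hz => ?_)
  · have hG := K.pos i _ ((A.e i).map_target hz)
    rw [dQ_self (qt_Qe K hd L hε.1) v hz, re_dQ, Complex.norm_real,
      Real.norm_of_nonneg (mul_nonneg (h0 _) (en_nonneg ((qt_Qe K hd L hε.1).psd i v z hz) _))]
    exact mul_le_mul_of_nonneg_left (ee_mono hG _ hε.1 hε.2 _) (h0 _)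
  · have hG := K.pos i _ ((A.e i).map_target hz)
    rw [dQ_self (qt_Q0L K hd L) v hz]
    refine ((Complex.continuous_ofReal.tendsto _).comp ((tendsto_ee hG
      (Cf (Fam.rd D (aM L a) i v) z) (th (Fam.rd D f i v) z)).const_mul
      (w (Fam.rd D a i v z)))).congr' (hI.mono fun ε hε => ?_)
    exact (dQ_self (qt_Qe K hd L hε.1) v hz).symm

end

end Crest.Agent.X261.Fam20
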